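import Crest.Agent.N250.Mt.Op
import Crest.Agent.N250.Po.Pol

/-!
# Row 250, matching (helper74): the shrinker operator in the polar chart
-/

set_option autoImplicit false
open MeasureTheory Set Filter Topology Metric

noncomputable section

namespace Crest.Agent.N250.Mt

open Po

/-- `C^n` on `R < x`, `C^(n-1)` up to `x = R`, periodic -/
structure Cn (n : ℕ) (R : ℝ) (f : ℝ × ℝ → ℂ) : Prop where
  cl : ContDiffOn ℝ (n - 1 : ℕ) f {z | R ≤ z.1}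
  op : ContDiffOn ℝ n f {z | R < z.1}
  per : ∀ x θ, R < x → f (x, θ + 2 * Real.pi) = f (x, θ)

theorem isOpen_half (R : ℝ) : IsOpen {z : ℝ × ℝ | R < z.1} := isOpen_lt continuous_const continuous_fst

theorem uniq_half (R : ℝ) : UniqueDiffOn ℝ {z : ℝ × ℝ | R ≤ z.1} := by
  have : {z : ℝ × ℝ | R ≤ z.1} = Ici R ×ˢ univ := by ext z; simp
  rw [this]
  exact (uniqueDiffOn_Ici R).prod uniqueDiffOn_univ

theorem hx_of {f : ℝ × ℝ → ℂ} {z : ℝ × ℝ} (h : DifferentiableAt ℝ f z) :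
    HasDerivAt (fun s => f (s, z.2)) (d1 f z) z.1 :=
  h.hasFDerivAt.comp_hasDerivAt z.1 ((hasDerivAt_id z.1).prodMk (hasDerivAt_const z.1 z.2))

theorem hy_of {f : ℝ × ℝ → ℂ} {x θ : ℝ} (h : DifferentiableAt ℝ f (x, θ)) :
    HasDerivAt (fun s => f (x, s)) (d2 f (x, θ)) θ :=
  h.hasFDerivAt.comp_hasDerivAt θ ((hasDerivAt_const θ x).prodMk (hasDerivAt_id θ))

theorem per_fd {R : ℝ} {f : ℝ × ℝ → ℂ} (h : ∀ x θ, R < x → f (x, θ + 2 * Real.pi) = f (x, θ))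
    {x : ℝ} (hx : R < x) (θ : ℝ) : fderiv ℝ f (x, θ + 2 * Real.pi) = fderiv ℝ f (x, θ) := by
  have e : (fun z : ℝ × ℝ => f (z + (0, 2 * Real.pi))) =ᶠ[𝓝 (x, θ)] f := by
    filter_upwards [(isOpen_half R).mem_nhds (show (x, θ) ∈ {z : ℝ × ℝ | R < z.1} from hx)] with z hz
    rw [← h z.1 z.2 hz]
    congr 1
    ext <;> simp
  rw [← e.fderiv_eq, fderiv_comp_add_right]
  simp

theorem cd_fd {n : ℕ} {f : ℝ × ℝ → ℂ} {s : Set (ℝ × ℝ)} (hs : IsOpen s)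
    (h : ContDiffOn ℝ (n + 1 : ℕ) f s) (w : ℝ × ℝ) : ContDiffOn ℝ n (fun z => fderiv ℝ f z w) s :=
  (h.fderiv_of_isOpen hs (by simp)).clm_apply contDiffOn_const

theorem Cn.j1 {R : ℝ} {f : ℝ × ℝ → ℂ} (h : Cn 1 R f) : J1 R f (d1 f) (d2 f) := by
  have df : ∀ z : ℝ × ℝ, R < z.1 → DifferentiableAt ℝ f z := fun z hz =>
    (h.op.contDiffAt ((isOpen_half R).mem_nhds hz)).differentiableAt (by simp)
  exact ⟨h.cl.continuousOn.mono fun _ hz => hz.1,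
    (cd_fd (n := 0) (isOpen_half R) h.op _).continuousOn.mono fun _ hz => hz.1,
    (cd_fd (n := 0) (isOpen_half R) h.op _).continuousOn.mono fun _ hz => hz.1,
    fun z hz => hx_of (df z hz.1), fun x hx θ _ => hy_of (df _ hx),
    fun x hx => by simpa using h.per x 0 hx⟩

/-- first derivatives up to the boundary -/
def dw (R : ℝ) (f : ℝ × ℝ → ℂ) (w z : ℝ × ℝ) : ℂ := fderivWithin ℝ f {z | R ≤ z.1} z w

theorem dw_eq {R : ℝ} (f : ℝ × ℝ → ℂ) (w : ℝ × ℝ) {z : ℝ × ℝ} (hz : R < z.1) :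
    dw R f w z = fderiv ℝ f z w := by
  rw [dw, fderivWithin_of_mem_nhds (s := {z : ℝ × ℝ | R ≤ z.1})
    (mem_of_superset ((isOpen_half R).mem_nhds hz) fun y hy => le_of_lt (α := ℝ) hy)]

theorem Cn.jt {R : ℝ} {f : ℝ × ℝ → ℂ} (h : Cn 2 R f) : Jt R f (dw R f (1, 0)) (dw R f (0, 1))
    (d1 (d1 f)) (d1 (d2 f)) (d2 (d2 f)) := by
  have o := isOpen_half R
  have c2 : ∀ z : ℝ × ℝ, R < z.1 → ContDiffAt ℝ 2 f z := fun z hz => h.op.contDiffAt (o.mem_nhds hz)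
  have df : ∀ z : ℝ × ℝ, R < z.1 → DifferentiableAt ℝ f z := fun z hz =>
    (c2 z hz).differentiableAt (by simp)
  have cw : ∀ w, ContinuousOn (dw R f w) (Hc R) := fun w =>
    ((h.cl.continuousOn_fderivWithin (uniq_half R) (by simp)).clm_apply continuousOn_const).mono
      fun _ hz => hz.1
  have c1 : ∀ w w', ContinuousOn (fun z => fderiv ℝ (fun y => fderiv ℝ f y w) z w') (Ho R) :=
    fun w w' => (cd_fd (n := 0) o (cd_fd (n := 1) o h.op w) w').continuousOn.mono fun _ hz => hz.1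
  have ex : ∀ w, ∀ z ∈ Ho R, HasDerivAt (fun s => dw R f w (s, z.2))
      (d1 (fun y => fderiv ℝ f y w) z) z.1 := fun w z hz =>
    (hx_of (diff_fd (c2 z hz.1) w)).congr_of_eventuallyEq
      ((lt_mem_nhds hz.1).mono fun s hs => dw_eq f w hs)
  have ey : ∀ w x, R < x → ∀ θ, HasDerivAt (fun s => dw R f w (x, s))
      (d2 (fun y => fderiv ℝ f y w) (x, θ)) θ := fun w x hx θ =>
    (hy_of (diff_fd (c2 _ hx) w)).congr_of_eventuallyEq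
      (Eventually.of_forall fun s => dw_eq f w hx)
  have pw : ∀ w, Pe R (dw R f w) := fun w x hx => by
    rw [dw_eq f w hx, dw_eq f w hx, ← per_fd h.per hx 0, zero_add]
  refine ⟨h.cl.continuousOn.mono fun _ hz => hz.1, cw _, cw _, c1 _ _, c1 _ _, c1 _ _,
    fun z hz => ?_, fun x hx θ _ => ?_, ex _, ex _, fun x hx θ _ => ?_, fun x hx θ _ => ey _ x hx θ,
    fun x hx => by simpa using h.per x 0 hx, pw _, pw _⟩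
  · rw [dw_eq f _ hz.1]; exact hx_of (df z hz.1)
  · rw [dw_eq f _ hx]; exact hy_of (df _ hx)
  · rw [← d21 (c2 _ hx)]; exact ey _ x hx θ

theorem of_Hc {R : ℝ} {f g : ℝ × ℝ → ℂ} {n k : ℕ} (hf : Cn n R f) (hg : Cn k R g)
    (h0 : ∀ θ, f (R, θ) = g (R, θ)) (h : ∀ z ∈ Hc R, f z = g z) (z : ℝ × ℝ) (hz : R ≤ z.1) :
    f z = g z := by
  obtain ⟨x, θ⟩ := z
  rcases eq_or_lt_of_le (show R ≤ x from hz) with rfl | hx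
  · exact h0 θ
  have p : Function.Periodic (fun θ => f (x, θ) - g (x, θ)) (2 * Real.pi) := fun θ => by
    simp only [hf.per x θ hx, hg.per x θ hx]
  obtain ⟨y, hy, e⟩ := p.exists_mem_Ico₀ Real.two_pi_pos θ
  exact sub_eq_zero.1 (e.trans (sub_eq_zero.2 (h (x, y) ⟨hz, Ico_subset_Icc_self hy⟩)))

/-- the 1-jet -/
def j1 (f : ℝ × ℝ → ℂ) (z : ℝ × ℝ) : W := (f z, d1 f z, d2 f z)

/-- the second derivatives -/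
def j2 (f : ℝ × ℝ → ℂ) (z : ℝ × ℝ) : W := (d1 (d1 f) z, d1 (d2 f) z, d2 (d2 f) z)

/-- the 1-jet is `ε`-close to the constant `c`, the second derivatives are at most `C` -/
def Nr (c : ℂ) (ε C : ℝ) (f : ℝ × ℝ → ℂ) (z : ℝ × ℝ) : Prop :=
  ‖f z - c‖ ≤ ε ∧ ‖d1 f z‖ ≤ ε ∧ ‖d2 f z‖ ≤ ε ∧
    ‖d1 (d1 f) z‖ ≤ C ∧ ‖d1 (d2 f) z‖ ≤ C ∧ ‖d2 (d2 f) z‖ ≤ C

theorem Nr.sm {c : ℂ} {ε C : ℝ} {f : ℝ × ℝ → ℂ} {z : ℝ × ℝ} (h : Nr c ε C f z) :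
    Op.Sm (c, 0, 0) ε C (j1 f z) (j2 f z) := by
  simpa only [Nr, Op.Sm, j1, j2, Prod.mk_sub_mk, sub_zero, Prod.norm_mk, max_le_iff, and_assoc] using h

/-- the coefficients `A`, `B` -/
def Cf (ε C : ℝ) (A B : ℝ × ℝ → ℂ) (z : ℝ × ℝ) : Prop :=
  ‖A z‖ + ‖B z‖ ≤ 2 ∧ ‖A z + B z - 1‖ ≤ ε ∧ ‖d1 A z‖ ≤ C ∧ ‖d2 A z‖ ≤ C ∧ ‖d1 B z‖ ≤ C ∧ ‖d2 B z‖ ≤ C

theorem Op.mt' {c : ℂ} (O : Op (c, 0, 0)) : ∃ ε : ℝ, 0 < ε ∧ ∀ C : ℝ, ∃ R₁ : ℝ, ∀ R, R₁ ≤ R →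
    ∀ f₀ f₁ f₂ A B : ℝ × ℝ → ℂ, Cn 2 R f₀ → Cn 2 R f₁ → Cn 2 R f₂ → Cn 1 R A → Cn 1 R B →
    (∀ z : ℝ × ℝ, R < z.1 → Cf ε C A B z) → (∀ z : ℝ × ℝ, R < z.1 → Nr c ε C f₀ z) →
    (∀ z : ℝ × ℝ, R < z.1 → (B z = 0 ∧ d1 B z = 0 ∧ d2 B z = 0) ∨ (Nr c ε C f₁ z ∧ Nr c ε C f₂ z)) →
    (∀ θ, f₂ (R, θ) = f₁ (R, θ)) →
    (Lo fun z => ‖f₂ z - f₁ z‖ * (‖d1 f₂ z - d1 f₁ z‖ + ‖d2 f₂ z - d2 f₁ z‖)) →
    (∀ z : ℝ × ℝ, R < z.1 → A z * O.L z.1 (j1 f₀ z) (j2 f₀ z) (j1 f₂ z - j1 f₁ z)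
      (j2 f₂ z - j2 f₁ z) + B z * (O.Φ z.1 (j1 f₂ z) (j2 f₂ z) - O.Φ z.1 (j1 f₁ z) (j2 f₁ z)) = 0) →
    ∀ z : ℝ × ℝ, R ≤ z.1 → f₂ z = f₁ z := by
  obtain ⟨ε, hε, h⟩ := O.mt
  refine ⟨ε, hε, fun C => ?_⟩
  obtain ⟨R₁, h⟩ := h C
  refine ⟨R₁, fun R hR f₀ f₁ f₂ A B h₀ h₁ h₂ hA hB cf n₀ n₁ bd lo eq => of_Hc h₂ h₁ bd ?_⟩
  have e : ∀ (f : ℝ × ℝ → ℂ) {z : ℝ × ℝ}, z ∈ Ho R →
      dw R f (1, 0) z = d1 f z ∧ dw R f (0, 1) z = d2 f z := fun f _ hz =>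
    ⟨dw_eq f _ hz.1, dw_eq f _ hz.1⟩
  refine h R hR h₀.jt h₁.jt h₂.jt hA.j1 hB.j1 (fun z hz => cf z hz.1) (fun z hz => ?_)
    (fun z hz => ?_) (fun θ _ => bd θ) (lo.mono (R := R) one_pos fun z hz => ?_) fun z hz => ?_
  · rw [(e _ hz).1, (e _ hz).2]; exact (n₀ z hz.1).sm
  · simp only [(e _ hz).1, (e _ hz).2]
    exact (n₁ z hz.1).imp id fun h => ⟨h.1.sm, h.2.sm⟩
  · simp only [(e _ hz).1, (e _ hz).2, one_mul, le_refl]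
  · simp only [(e _ hz).1, (e _ hz).2]
    exact eq z hz.1

/-! ### the unknown `r` -/

theorem s2 : ((√2 : ℝ) : ℂ) ^ 2 = 2 := by
  rw [← Complex.ofReal_pow, Real.sq_sqrt zero_le_two]; rfl

/-- `√2 / 4 = (2 √2)⁻¹` -/
def k2 : ℂ := ((√2 : ℝ) : ℂ) / 4

theorem k2_ne : k2 ≠ 0 := div_ne_zero (by simp) (by norm_num)

theorem fd_mul {m : W → ℂ} (hm : ContDiff ℂ 1 m) (c : ℂ) (h : m (c, 0, 0) = 1) (D : W) :
    fderiv ℂ (fun j : W => j.2.1 * m j) (c, 0, 0) D = D.2.1 := by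
  have h1 : HasFDerivAt (fun j : W => j.2.1) _ ((c, 0, 0) : W) :=
    (hasFDerivAt_snd (𝕜 := ℂ)).fst
  rw [(h1.fun_mul (hm.differentiable one_ne_zero _).hasFDerivAt).fderiv]
  simp [h]

/-- `k2 * PR` -/
def opR : Op (((√2 : ℝ) : ℂ), 0, 0) where
  a j := k2 * (j.1 * (j.1 ^ 2 + j.2.2 ^ 2))
  b j := k2 * (-2 * j.1 * j.2.1 * j.2.2)
  c j := k2 * (j.1 * (1 + j.2.1 ^ 2))
  e j := k2 * (2 * j.2.1 ^ 2 * j.2.2 ^ 2 - (1 + j.2.1 ^ 2) * (j.1 ^ 2 + 2 * j.2.2 ^ 2) +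
    (j.1 ^ 2 + (j.1 * j.2.1) ^ 2 + j.2.2 ^ 2) * j.1 ^ 2 / 2)
  g j := j.2.1 * (k2 * (j.1 * (j.1 ^ 2 + (j.1 * j.2.1) ^ 2 + j.2.2 ^ 2)))
  ha := by fun_prop
  hb := by fun_prop
  hc := by fun_prop
  he := by fun_prop
  hg := by fun_prop
  a0 := by simp only [k2]; linear_combination (((√2 : ℝ) : ℂ) ^ 2 + 2) / 4 * s2
  b0 := by simp
  c0 := by simp only [k2]; linear_combination s2 / 4
  g0 := fd_mul (by fun_prop) _ (by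
    simp only [k2]; linear_combination (((√2 : ℝ) : ℂ) ^ 2 + 2) / 4 * s2)

/-- `Po.PR` on jets -/
def PRj (x : ℂ) (j k : W) : ℂ := PR x j.1 j.2.1 j.2.2 k.1 k.2.1 k.2.2

theorem opR_Φ (x : ℂ) (j k : W) : opR.Φ x j k = k2 * PRj x j k := by
  simp only [Op.Φ, opR, PRj, PR]; ring

/-- the linearisation of `Po.PR` -/
def PL (x : ℂ) (j k D K : W) : ℂ := deriv (fun s : ℂ => PRj x (j + s • D) (k + s • K)) 0

theorem hasDerivAt_PR (x : ℂ) (j k D K : W) :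
    HasDerivAt (fun s : ℂ => PRj x (j + s • D) (k + s • K)) (PL x j k D K) 0 := by
  refine DifferentiableAt.hasDerivAt ?_
  simp only [PRj, PR]
  fun_prop

theorem opR_L (x : ℂ) (j k D K : W) : opR.L x j k D K = k2 * PL x j k D K := by
  have h := opR.hasDerivAt x j k D K
  simp only [opR_Φ] at h
  exact h.unique ((hasDerivAt_PR x j k D K).const_mul k2)

/-- **matching in the unknown `r`** -/
theorem match_r : ∃ ε : ℝ, 0 < ε ∧ ∀ C : ℝ, ∃ R₁ : ℝ, ∀ R, R₁ ≤ R →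
    ∀ r₀ r₁ r₂ A B : ℝ × ℝ → ℂ, Cn 2 R r₀ → Cn 2 R r₁ → Cn 2 R r₂ → Cn 1 R A → Cn 1 R B →
    (∀ z : ℝ × ℝ, R < z.1 → Cf ε C A B z) → (∀ z : ℝ × ℝ, R < z.1 → Nr (√2 : ℝ) ε C r₀ z) →
    (∀ z : ℝ × ℝ, R < z.1 → (B z = 0 ∧ d1 B z = 0 ∧ d2 B z = 0) ∨
      (Nr (√2 : ℝ) ε C r₁ z ∧ Nr (√2 : ℝ) ε C r₂ z)) →
    (∀ θ, r₂ (R, θ) = r₁ (R, θ)) →
    (Lo fun z => ‖r₂ z - r₁ z‖ * (‖d1 r₂ z - d1 r₁ z‖ + ‖d2 r₂ z - d2 r₁ z‖)) →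
    (∀ z : ℝ × ℝ, R < z.1 → A z * PL z.1 (j1 r₀ z) (j2 r₀ z) (j1 r₂ z - j1 r₁ z)
      (j2 r₂ z - j2 r₁ z) + B z * (PRj z.1 (j1 r₂ z) (j2 r₂ z) - PRj z.1 (j1 r₁ z) (j2 r₁ z)) = 0) →
    ∀ z : ℝ × ℝ, R ≤ z.1 → r₂ z = r₁ z := by
  obtain ⟨ε, hε, h⟩ := opR.mt'
  refine ⟨ε, hε, fun C => ?_⟩
  obtain ⟨R₁, h⟩ := h C
  refine ⟨R₁, fun R hR f₀ f₁ f₂ A B h₀ h₁ h₂ hA hB cf n₀ n₁ bd lo eq =>
    h R hR f₀ f₁ f₂ A B h₀ h₁ h₂ hA hB cf n₀ n₁ bd lo fun z hz => ?_⟩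
  rw [opR_L, opR_Φ, opR_Φ]
  linear_combination k2 * eq z hz

/-! ### the unknown `v` -/

/-- `EL * QQ * v³ / 2` -/
def opV : Op (1, 0, 0) where
  a j := j.1 ^ 4 + j.1 ^ 2 * j.2.2 ^ 2 / 4
  b j := -(j.1 ^ 2 * j.2.1 * j.2.2) / 2
  c j := j.1 ^ 3 / 2 + j.1 ^ 2 * j.2.1 ^ 2 / 4
  e j := ((j.1 - 1) * j.1 ^ 2 - j.2.2 ^ 2 / 4) * (4 * j.1 ^ 2 + 2 * j.1 * j.2.1 ^ 2 + j.2.2 ^ 2) / 4
    - (j.1 ^ 3 * j.2.1 ^ 2 / 2 - j.1 * j.2.2 ^ 2 * j.2.1 ^ 2 / 8 + j.1 ^ 2 * j.2.2 ^ 2 / 4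
      - j.2.2 ^ 4 / 16)
  g j := j.2.1 * (j.1 ^ 2 * (4 * j.1 ^ 2 + 2 * j.1 * j.2.1 ^ 2 + j.2.2 ^ 2) / 4)
  ha := by fun_prop
  hb := by fun_prop
  hc := by fun_prop
  he := by fun_prop
  hg := by fun_prop
  a0 := by simp
  b0 := by simp
  c0 := by simp
  g0 := fd_mul (by fun_prop) _ (by norm_num)

/-- `Po.EL` on jets -/
def ELj (x : ℂ) (j k : W) : ℂ := EL x j.1 j.2.1 j.2.2 k.1 k.2.1 k.2.2

/-- the factor -/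
def mV (j : W) : ℂ := QQ j.1 j.2.1 j.2.2 * j.1 ^ 3 / 2

theorem opV_Φ (x : ℂ) {j : W} (k : W) (h1 : j.1 ≠ 0) (h2 : QQ j.1 j.2.1 j.2.2 ≠ 0) :
    opV.Φ x j k = ELj x j k * mV j := by
  have e : ∀ A B C D E : ℂ, D ≠ 0 → (A - B / (2 * D) - C) * (D * E / 2) =
      ((A - C) * D - B / 2) * E / 2 := fun A B C D E hD => by field_simp; ring
  simp only [Op.Φ, opV, ELj, EL, mV]
  rw [e _ _ _ _ _ h2]
  simp only [QQ]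
  field_simp
  ring

theorem ne_of_near {j : W} (h : ‖j - (1, 0, 0)‖ ≤ 1 / 4) : j.1 ≠ 0 ∧ QQ j.1 j.2.1 j.2.2 ≠ 0 := by
  obtain ⟨v, p, q⟩ := j
  simp only [Prod.mk_sub_mk, sub_zero, Prod.norm_mk, max_le_iff] at h
  obtain ⟨h1, h2, h3⟩ := h
  have a1 : 3 / 4 ≤ ‖v‖ := by
    have := norm_le_norm_sub_add (1 : ℂ) v
    rw [norm_one, norm_sub_rev] at this
    linarith
  have a2 : v ≠ 0 := fun e => by rw [e, norm_zero] at a1; linarith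
  refine ⟨a2, fun e => ?_⟩
  have e1 : 4 * v ^ 2 = -(2 * v * p ^ 2 + q ^ 2) := by
    simp only [QQ] at e
    field_simp at e
    linear_combination e
  have a3 := congrArg norm e1
  have a4 := norm_add_le (2 * v * p ^ 2) (q ^ 2)
  simp only [norm_neg, norm_mul, norm_pow, Complex.norm_ofNat] at a3 a4
  have a5 : ‖p‖ ^ 2 ≤ (1 / 4) ^ 2 := by gcongr
  have a6 : ‖q‖ ^ 2 ≤ (1 / 4) ^ 2 := by gcongr
  nlinarith

theorem opV_L {x : ℂ} {j k D K : W} {l : ℂ} (h : ‖j - (1, 0, 0)‖ < 1 / 4) (h0 : ELj x j k = 0)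
    (hl : HasDerivAt (fun s : ℂ => ELj x (j + s • D) (k + s • K)) l 0) :
    opV.L x j k D K = l * mV j := by
  have n := ne_of_near h.le
  have h1 : DifferentiableAt ℂ (fun s : ℂ => mV (j + s • D)) 0 := by
    simp only [mV, QQ]
    have : 2 * (j + (0 : ℂ) • D).1 ≠ 0 := by simpa using n.1
    fun_prop (disch := exact this)
  have h2 := hl.mul h1.hasDerivAt
  simp only [zero_smul, add_zero, h0, zero_mul] at h2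
  refine (opV.hasDerivAt x j k D K).unique (h2.congr_of_eventuallyEq ?_)
  have c : Continuous fun s : ℂ => ‖j + s • D - (1, 0, 0)‖ := by fun_prop
  filter_upwards [c.continuousAt.eventually (gt_mem_nhds (show ‖j + (0 : ℂ) • D - (1, 0, 0)‖ < 1 / 4 by
    simpa using h))] with s hs
  exact opV_Φ x _ (ne_of_near hs.le).1 (ne_of_near hs.le).2

theorem Cn.const (n : ℕ) (R : ℝ) (c : ℂ) : Cn n R fun _ => c :=
  ⟨contDiffOn_const, contDiffOn_const, fun _ _ _ => rfl⟩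

theorem Op.jac {c : ℂ} (O : Op (c, 0, 0)) : ∃ ε : ℝ, 0 < ε ∧ ∀ C : ℝ, ∃ R₁ : ℝ, ∀ R, R₁ ≤ R →
    ∀ f d : ℝ × ℝ → ℂ, Cn 2 R f → Cn 2 R d → (∀ z : ℝ × ℝ, R < z.1 → Nr c ε C f z) →
    (∀ θ, d (R, θ) = 0) → (Lo fun z => ‖d z‖ * (‖d1 d z‖ + ‖d2 d z‖)) →
    (∀ z : ℝ × ℝ, R < z.1 → O.L z.1 (j1 f z) (j2 f z) (j1 d z) (j2 d z) = 0) →
    ∀ z : ℝ × ℝ, R ≤ z.1 → d z = 0 := by
  obtain ⟨ε, hε, h⟩ := O.mt'
  refine ⟨ε, hε, fun C => ?_⟩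
  obtain ⟨R₁, h⟩ := h C
  have z1 : d1 (fun _ : ℝ × ℝ => (0 : ℂ)) = fun _ => 0 := by funext z; simp [d1]
  have z2 : d2 (fun _ : ℝ × ℝ => (0 : ℂ)) = fun _ => 0 := by funext z; simp [d2]
  refine ⟨R₁, fun R hR f d hf hd n bd lo eq => h R hR f (fun _ => 0) d (fun _ => 1) (fun _ => 0) hf
    (Cn.const _ _ _) hd (Cn.const _ _ _) (Cn.const _ _ _) (fun z hz => ?_) n
    (fun z _ => Or.inl ⟨rfl, by rw [z1], by rw [z2]⟩) bd (by simpa only [z1, z2, sub_zero] using lo)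
    fun z hz => ?_⟩
  · have hC : 0 ≤ C := (norm_nonneg _).trans (n z hz).2.2.2.1
    simp [Cf, d1, d2, hC, hε.le]
  · have e1 : j1 (fun _ => 0) z = 0 := by simp only [j1, z1, z2]; rfl
    have e2 : j2 (fun _ => 0) z = 0 := by simp only [j2, z1, z2]; rfl
    rw [e1, e2, sub_zero, sub_zero, eq z hz]
    ring

/-- **uniqueness of Jacobi fields, unknown `r`** -/
theorem jac_r : ∃ ε : ℝ, 0 < ε ∧ ∀ C : ℝ, ∃ R₁ : ℝ, ∀ R, R₁ ≤ R →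
    ∀ r d : ℝ × ℝ → ℂ, Cn 2 R r → Cn 2 R d → (∀ z : ℝ × ℝ, R < z.1 → Nr (√2 : ℝ) ε C r z) →
    (∀ θ, d (R, θ) = 0) → (Lo fun z => ‖d z‖ * (‖d1 d z‖ + ‖d2 d z‖)) →
    (∀ z : ℝ × ℝ, R < z.1 → PL z.1 (j1 r z) (j2 r z) (j1 d z) (j2 d z) = 0) →
    ∀ z : ℝ × ℝ, R ≤ z.1 → d z = 0 := by
  obtain ⟨ε, hε, h⟩ := opR.jac
  refine ⟨ε, hε, fun C => ?_⟩
  obtain ⟨R₁, h⟩ := h C
  exact ⟨R₁, fun R hR f d hf hd n bd lo eq => h R hR f d hf hd n bd lo fun z hz => by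
    rw [opR_L, eq z hz, mul_zero]⟩

/-- **uniqueness of Jacobi fields, unknown `v`** -/
theorem jac_v : ∃ ε : ℝ, 0 < ε ∧ ∀ C : ℝ, ∃ R₁ : ℝ, ∀ R, R₁ ≤ R →
    ∀ v d : ℝ × ℝ → ℂ, Cn 2 R v → Cn 2 R d → (∀ z : ℝ × ℝ, R < z.1 → Nr 1 ε C v z) →
    (∀ z : ℝ × ℝ, R < z.1 → ELj z.1 (j1 v z) (j2 v z) = 0) →
    (∀ θ, d (R, θ) = 0) → (Lo fun z => ‖d z‖ * (‖d1 d z‖ + ‖d2 d z‖)) →
    (∀ z : ℝ × ℝ, R < z.1 → HasDerivAt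
      (fun s : ℂ => ELj z.1 (j1 v z + s • j1 d z) (j2 v z + s • j2 d z)) 0 0) →
    ∀ z : ℝ × ℝ, R ≤ z.1 → d z = 0 := by
  obtain ⟨ε, hε, h⟩ := opV.jac
  refine ⟨min ε (1 / 8), lt_min hε (by norm_num), fun C => ?_⟩
  obtain ⟨R₁, h⟩ := h C
  refine ⟨R₁, fun R hR f d hf hd n e0 bd lo eq => h R hR f d hf hd (fun z hz => ?_) bd lo
    fun z hz => ?_⟩
  · obtain ⟨a1, a2, a3, a4⟩ := n z hz
    exact ⟨a1.trans (min_le_left _ _), a2.trans (min_le_left _ _), a3.trans (min_le_left _ _), a4⟩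
  · rw [opV_L (((n z hz).sm.1.trans (min_le_right _ _)).trans_lt (by norm_num)) (e0 z hz) (eq z hz),
      zero_mul]

/-- polynomial growth -/
theorem lo_of_pow {φ : ℝ × ℝ → ℝ} {R M : ℝ} {k : ℕ} (h : ∀ q ∈ Ho R, φ q ≤ M * (1 + q.1 ^ 2) ^ k) :
    Lo φ := by
  refine lo_of_exp (R := R) (M := |M| * (5 ^ k * k.factorial * Real.exp (1 / 5))) fun q hq =>
    (h q hq).trans ?_
  have h1 := Real.pow_div_factorial_le_exp ((1 + q.1 ^ 2) / 5) (by positivity) k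
  rw [div_le_iff₀ (by positivity), div_pow, div_le_iff₀ (by positivity), add_div, Real.exp_add] at h1
  rw [mul_assoc]
  exact mul_le_mul (le_abs_self M) (by linarith) (by positivity) (abs_nonneg M)

end Crest.Agent.N250.Mt

end
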