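import Crest.Agent.N250.Act.Box

/-!
# Row 250, matching (helper74): uniqueness on the half cylinder, flux form, complex coefficients
-/

set_option autoImplicit false
open MeasureTheory Set Filter Topology
open scoped ComplexConjugate

noncomputable section

namespace Crest.Agent.N250.Mt

open Act

/-- closed half strip -/
def Hc (R : ℝ) : Set (ℝ × ℝ) := {q | R ≤ q.1 ∧ q.2 ∈ Icc 0 (2 * Real.pi)}

/-- open half strip -/
def Ho (R : ℝ) : Set (ℝ × ℝ) := {q | R < q.1 ∧ q.2 ∈ Icc 0 (2 * Real.pi)}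

theorem Ho_sub (R : ℝ) : Ho R ⊆ Hc R := fun _ hq => ⟨hq.1.le, hq.2⟩

/-- derivative in `x` -/
def Dx (R : ℝ) (f f' : ℝ × ℝ → ℂ) : Prop :=
  ∀ q ∈ Ho R, HasDerivAt (fun s => f (s, q.2)) (f' q) q.1

/-- derivative in `θ` -/
def Dy (R : ℝ) (f f' : ℝ × ℝ → ℂ) : Prop :=
  ∀ x, R < x → ∀ θ ∈ Ioo 0 (2 * Real.pi), HasDerivAt (fun θ => f (x, θ)) (f' (x, θ)) θ

/-- periodicity -/
def Pe (R : ℝ) (f : ℝ × ℝ → ℂ) : Prop := ∀ x, R < x → f (x, 2 * Real.pi) = f (x, 0)

/-- the Gaussian weight -/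
def Eg (x : ℝ) : ℝ := Real.exp (-x ^ 2 / 4)

/-- the Gaussian circle integrals of `φ` have lower limit `0` -/
def Lo (φ : ℝ × ℝ → ℝ) : Prop := ∀ ε : ℝ, 0 < ε → ∃ᶠ y in atTop,
  ∫⁻ θ in Ioc 0 (2 * Real.pi), ENNReal.ofReal (Eg y * φ (y, θ)) ≤ ENNReal.ofReal ε

theorem Lo.mono {φ ψ : ℝ × ℝ → ℝ} {R c : ℝ} (h : Lo φ) (hc : 0 < c)
    (hψ : ∀ q ∈ Ho R, ψ q ≤ c * φ q) : Lo ψ := by
  intro ε hε
  refine ((h (ε / c) (by positivity)).and_eventually (eventually_gt_atTop R)).mono fun y hy => ?_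
  calc _ ≤ ∫⁻ θ in Ioc 0 (2 * Real.pi), ENNReal.ofReal c * ENNReal.ofReal (Eg y * φ (y, θ)) := by
        refine setLIntegral_mono' measurableSet_Ioc fun θ hθ => ?_
        rw [← ENNReal.ofReal_mul hc.le, mul_left_comm]
        exact ENNReal.ofReal_le_ofReal (mul_le_mul_of_nonneg_left
          (hψ (y, θ) ⟨hy.2, Ioc_subset_Icc_self hθ⟩) (Real.exp_pos _).le)
    _ ≤ ENNReal.ofReal c * ENNReal.ofReal (ε / c) := by
        rw [lintegral_const_mul' _ _ ENNReal.ofReal_ne_top]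
        exact mul_le_mul_right hy.1 _
    _ = _ := by rw [← ENNReal.ofReal_mul hc.le, mul_div_cancel₀ _ hc.ne']

theorem lo_of_exp {φ : ℝ × ℝ → ℝ} {R M : ℝ}
    (h : ∀ q ∈ Ho R, φ q ≤ M * Real.exp (q.1 ^ 2 / 5)) : Lo φ := by
  intro ε hε
  have t1 : Tendsto (fun y : ℝ => M * Real.exp (-y ^ 2 / 20) * (2 * Real.pi)) atTop (𝓝 0) := by
    have : Tendsto (fun y : ℝ => -y ^ 2 / 20) atTop atBot :=
      (tendsto_neg_atTop_atBot.comp (tendsto_pow_atTop two_ne_zero)).atBot_div_const (by norm_num)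
    simpa using ((Real.tendsto_exp_atBot.comp this).const_mul M).mul_const (2 * Real.pi)
  refine ((t1.eventually (gt_mem_nhds hε)).and (eventually_gt_atTop R)).frequently.mono
    fun y hy => ?_
  calc _ ≤ ∫⁻ _ in Ioc 0 (2 * Real.pi), ENNReal.ofReal (M * Real.exp (-y ^ 2 / 20)) := by
        refine setLIntegral_mono' measurableSet_Ioc fun θ hθ => ENNReal.ofReal_le_ofReal ?_
        have b3 : Real.exp (-y ^ 2 / 20) = Eg y * Real.exp (y ^ 2 / 5) := by
          rw [Eg, ← Real.exp_add]; congr 1; ring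
        rw [b3, mul_left_comm]
        exact mul_le_mul_of_nonneg_left (h (y, θ) ⟨hy.2, Ioc_subset_Icc_self hθ⟩) (Real.exp_pos _).le
    _ ≤ _ := by
        rw [setLIntegral_const, Real.volume_Ioc, sub_zero, ← ENNReal.ofReal_mul' tp_pos]
        exact ENNReal.ofReal_le_ofReal hy.1.le

theorem lo_of_lint {φ : ℝ × ℝ → ℝ} {R : ℝ} (hc : ContinuousOn φ (Ho R))
    (h : ∫⁻ q in Ho R, ENNReal.ofReal (Eg q.1 * φ q) ≠ ⊤) : Lo φ := by
  intro ε hε
  by_contra hn
  rw [not_frequently] at hn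
  obtain ⟨Y, hY⟩ := eventually_atTop.1 (hn.and (eventually_gt_atTop R))
  have s1 : Ici Y ×ˢ Ioc 0 (2 * Real.pi) ⊆ Ho R := fun q hq =>
    ⟨(hY _ hq.1).2, Ioc_subset_Icc_self hq.2⟩
  have m1 : AEMeasurable (fun q : ℝ × ℝ => ENNReal.ofReal (Eg q.1 * φ q))
      ((volume.restrict (Ici Y)).prod (volume.restrict (Ioc 0 (2 * Real.pi)))) := by
    rw [Measure.prod_restrict]
    exact (ContinuousOn.aemeasurable (ContinuousOn.mul (by unfold Eg; fun_prop) (hc.mono s1))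
      (measurableSet_Ici.prod measurableSet_Ioc)).ennreal_ofReal
  refine h (top_unique (le_trans ?_ (lintegral_mono_set s1)))
  rw [Measure.volume_eq_prod, ← Measure.prod_restrict, lintegral_prod _ m1]
  refine le_trans ?_ (setLIntegral_mono' (f := fun _ => ENNReal.ofReal ε) measurableSet_Ici
    fun y hy => (not_le.1 (hY y hy).1).le)
  rw [setLIntegral_const, Real.volume_Ici, ENNReal.mul_top (by simpa using hε)]

/-- the data of the uniqueness theorem: `∂ₓ F₁ - x F₁ / 2 + ∂_θ F₂` is of lower order,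
`F₁ ≈ ∂ₓ d`, `F₂ ≈ ∂_θ d / 2` -/
structure Flux (R C : ℝ) (d P T F₁ F₂ F₁' F₂' : ℝ × ℝ → ℂ) : Prop where
  cd : ContinuousOn d (Hc R)
  cF : ContinuousOn F₁ (Hc R)
  cP : ContinuousOn P (Ho R)
  cT : ContinuousOn T (Ho R)
  c₂ : ContinuousOn F₂ (Ho R)
  c₁' : ContinuousOn F₁' (Ho R)
  c₂' : ContinuousOn F₂' (Ho R)
  dP : Dx R d P
  dT : Dy R d T
  d₁ : Dx R F₁ F₁'
  d₂ : Dy R F₂ F₂'
  pd : Pe R d
  p₂ : Pe R F₂
  bd : ∀ θ ∈ Icc 0 (2 * Real.pi), d (R, θ) = 0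
  b₁ : ∀ q ∈ Ho R, ‖F₁ q - P q‖ ≤ (‖P q‖ + ‖T q‖) / 50 + C * ‖d q‖
  b₂ : ∀ q ∈ Ho R, ‖F₂ q - T q / 2‖ ≤ (‖P q‖ + ‖T q‖) / 50 + C * ‖d q‖
  eq : ∀ q ∈ Ho R, ‖F₁' q - q.1 / 2 * F₁ q + F₂' q‖ ≤
    (q.1 / 100 + C) * (‖P q‖ + ‖T q‖) + C * (1 + q.1) * ‖d q‖
  gr : Lo fun q => ‖d q‖ * ‖F₁ q‖

theorem re_ge (z : ℂ) {b : ℝ} (h : ‖z‖ ≤ b) : -b ≤ z.re :=
  (neg_le_neg h).trans (neg_le_of_abs_le (Complex.abs_re_le_norm z))

theorem conj_mul_re (z : ℂ) : (conj z * z).re = ‖z‖ ^ 2 := by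
  rw [Complex.conj_mul', ← Complex.ofReal_pow, Complex.ofReal_re]

/-- the pointwise inequality -/
theorem pt {x C : ℝ} (h1 : 1000 ≤ x) (h2 : 1000 * C ≤ x) {d P T F₁ F₂ g : ℂ}
    (b₁ : ‖F₁ - P‖ ≤ (‖P‖ + ‖T‖) / 50 + C * ‖d‖) (b₂ : ‖F₂ - T / 2‖ ≤ (‖P‖ + ‖T‖) / 50 + C * ‖d‖)
    (b₃ : ‖g‖ ≤ (x / 100 + C) * (‖P‖ + ‖T‖) + C * (1 + x) * ‖d‖) :
    ‖d‖ ^ 2 ≤ (conj d * g + conj P * F₁ + conj T * F₂ -
      (1 / 16 : ℂ) * ((1 - x ^ 2 / 2) * (conj d * d) + x * (conj P * d + conj d * P))).re := by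
  set u := ‖d‖
  set p := ‖P‖
  set t := ‖T‖
  have hu : 0 ≤ u := norm_nonneg _
  have hp : 0 ≤ p := norm_nonneg _
  have ht : 0 ≤ t := norm_nonneg _
  have e : conj d * g + conj P * F₁ + conj T * F₂ -
      (1 / 16 : ℂ) * ((1 - x ^ 2 / 2) * (conj d * d) + x * (conj P * d + conj d * P)) =
      conj d * g + conj P * P + conj P * (F₁ - P) + ((1 / 2 : ℝ) : ℂ) * (conj T * T) +
      conj T * (F₂ - T / 2) + (((x ^ 2 / 2 - 1) / 16 : ℝ) : ℂ) * (conj d * d) +
      -((x / 16 : ℝ) : ℂ) * (conj P * d + conj d * P) := by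
    push_cast; ring
  have a1 : -(u * ((x / 100 + C) * (p + t) + C * (1 + x) * u)) ≤ (conj d * g).re :=
    re_ge _ (by rw [norm_mul, Complex.norm_conj]; gcongr)
  have a2 : -(p * ((p + t) / 50 + C * u)) ≤ (conj P * (F₁ - P)).re :=
    re_ge _ (by rw [norm_mul, Complex.norm_conj]; gcongr)
  have a3 : -(t * ((p + t) / 50 + C * u)) ≤ (conj T * (F₂ - T / 2)).re :=
    re_ge _ (by rw [norm_mul, Complex.norm_conj]; gcongr)
  have a4 : -(x / 16 * (p * u + u * p)) ≤ (-((x / 16 : ℝ) : ℂ) * (conj P * d + conj d * P)).re :=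
    re_ge _ (by
      rw [norm_mul, norm_neg, Complex.norm_real, Real.norm_of_nonneg (by linarith)]
      gcongr
      exact (norm_add_le _ _).trans (by simp only [norm_mul, Complex.norm_conj]; rfl))
  rw [e]
  simp only [Complex.add_re, Complex.re_ofReal_mul, conj_mul_re]
  set s := x * u with hs
  have s0 : 0 ≤ s := by positivity
  have s1 : u ≤ s / 1000 := by rw [hs]; nlinarith
  have s2 : C * u ≤ s / 1000 := by rw [hs]; nlinarith
  have c1 : C * u * (p + t) ≤ s / 1000 * (p + t) := by gcongr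
  have c2 : C * u * u ≤ s / 1000 * (s / 1000) := by gcongr
  have c3 : C * u * s ≤ s / 1000 * s := by gcongr
  have c4 : u ^ 2 ≤ (s / 1000) ^ 2 := by gcongr
  have e1 : u * ((x / 100 + C) * (p + t) + C * (1 + x) * u) =
      s * (p + t) / 100 + C * u * (p + t) + C * u * u + C * u * s := by rw [hs]; ring
  have e2 : x / 16 * (p * u + u * p) = s * p / 8 := by rw [hs]; ring
  have e3 : (x ^ 2 / 2 - 1) / 16 * u ^ 2 = s ^ 2 / 32 - u ^ 2 / 16 := by rw [hs]; ring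
  rw [e1] at a1
  rw [e2] at a4
  rw [e3]
  nlinarith [sq_nonneg (p - s / 7), sq_nonneg (t - s / 20), sq_nonneg (p - t)]

theorem hasDerivAt_Eg (x : ℝ) : HasDerivAt (fun s => (Eg s : ℂ)) (-(x / 2) * Eg x) x := by
  have h : HasDerivAt Eg (Real.exp (-x ^ 2 / 4) * (-(2 * x) / 4)) x := by
    have := ((hasDerivAt_pow 2 x).neg.div_const 4).exp
    simp only [Pi.neg_apply, Nat.cast_ofNat, Nat.add_one_sub_one, pow_one] at this
    exact this
  convert h.ofReal_comp using 1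
  simp only [Eg]
  push_cast
  ring

theorem cont_Eg : Continuous fun q : ℝ × ℝ => (Eg q.1 : ℂ) := by unfold Eg; fun_prop

variable {R C : ℝ} {d P T F₁ F₂ F₁' F₂' : ℝ × ℝ → ℂ}

theorem hd_conj {f : ℝ → ℂ} {f' : ℂ} {x : ℝ} (h : HasDerivAt f f' x) :
    HasDerivAt (fun s => conj (f s)) (conj f') x := by
  simpa using h.star

theorem Flux.eq_zero (h : Flux R C d P T F₁ F₂ F₁' F₂') (h1 : 1000 ≤ R)
    (h2 : 1000 * C ≤ R) : ∀ q ∈ Hc R, d q = 0 := by
  set G : ℝ × ℝ → ℂ := fun q => Eg q.1 * (conj (d q) * F₁ q - (1 / 16 : ℂ) *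
    (q.1 * (conj (d q) * d q))) with hG
  set G' : ℝ × ℝ → ℂ := fun q => Eg q.1 * (conj (d q) * (F₁' q - q.1 / 2 * F₁ q) +
    conj (P q) * F₁ q - (1 / 16 : ℂ) * ((1 - q.1 ^ 2 / 2) * (conj (d q) * d q) +
      q.1 * (conj (P q) * d q + conj (d q) * P q))) with hG'
  set H : ℝ × ℝ → ℂ := fun q => Eg q.1 * (conj (d q) * F₂ q) with hH
  set H' : ℝ × ℝ → ℂ := fun q => Eg q.1 * (conj (T q) * F₂ q + conj (d q) * F₂' q) with hH'
  have cj : ∀ {f : ℝ × ℝ → ℂ} {s : Set (ℝ × ℝ)}, ContinuousOn f s →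
      ContinuousOn (fun q => conj (f q)) s := fun hf => Complex.continuous_conj.comp_continuousOn hf
  have cx : Continuous fun q : ℝ × ℝ => (q.1 : ℂ) := by fun_prop
  have cG : ContinuousOn G (Hc R) := cont_Eg.continuousOn.mul (((cj h.cd).mul h.cF).sub
    (continuousOn_const.mul (cx.continuousOn.mul ((cj h.cd).mul h.cd))))
  have sub := Ho_sub R
  have cd := h.cd.mono sub
  have cF := h.cF.mono sub
  have key : ∀ α β, R < α → α ≤ β →
      ∫ q in Rc α β, Eg q.1 * ‖d q‖ ^ 2 ≤ (OI β G).re - (OI α G).re := by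
    intro α β hα hαβ
    have s1 : Rc α β ⊆ Ho R := fun q hq => ⟨hα.trans_le hq.1.1, hq.2⟩
    have cG' : ContinuousOn G' (Rc α β) := (cont_Eg.continuousOn.mul
      ((((cj cd).mul (h.c₁'.sub ((cx.continuousOn.div_const _).mul cF))).add
        ((cj h.cP).mul cF)).sub (continuousOn_const.mul
      (((continuousOn_const.sub ((cx.continuousOn.pow 2).div_const _)).mul ((cj cd).mul cd)).add
        (cx.continuousOn.mul (((cj h.cP).mul cd).add ((cj cd).mul h.cP))))))).mono s1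
    have cH : ContinuousOn H (Rc α β) := (cont_Eg.continuousOn.mul ((cj cd).mul h.c₂)).mono s1
    have cH' : ContinuousOn H' (Rc α β) := (cont_Eg.continuousOn.mul
      (((cj h.cT).mul h.c₂).add ((cj cd).mul h.c₂'))).mono s1
    have e1 := II_div (f := fun q => G' q + H' q) (e := fun _ => 0) (G := G) (G' := G') (H := H)
      (H' := H') hαβ continuousOn_const (cG.mono (s1.trans sub)) cG' (fun s hs θ hθ => by
        have hs' : (s, θ) ∈ Ho R := ⟨hα.trans hs.1, hθ⟩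
        have a1 := h.dP _ hs'
        have a2 := (hasDerivAt_Eg s).mul (((hd_conj a1).mul (h.d₁ _ hs')).sub
          (((hasDerivAt_id s).ofReal_comp.mul ((hd_conj a1).mul a1)).const_mul (1 / 16 : ℂ)))
        refine (a2.congr_deriv ?_ :)
        simp only [hG', Pi.mul_apply, Pi.sub_apply, id]
        push_cast
        ring) cH cH' (fun s hs θ hθ => by
        have hs' : R < s := hα.trans_le hs.1
        exact (((hd_conj (h.dT _ hs' θ hθ)).mul (h.d₂ _ hs' θ hθ)).const_mul (Eg s : ℂ) :))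
      (fun s hs => by
        simp only [hH, h.pd s (hα.trans_le hs.1), h.p₂ s (hα.trans_le hs.1)])
      (fun _ _ => by ring)
    have i1 : IntegrableOn (fun q => G' q + H' q) (Rc α β) :=
      (cG'.add cH').integrableOn_compact (isCompact_Rc _ _)
    rw [II_zero, zero_add, II_eq (f := fun q => G' q + H' q) hαβ (cG'.add cH')] at e1
    rw [← Complex.sub_re, ← e1]
    have e2 := integral_re i1
    simp only [RCLike.re_to_complex] at e2
    rw [← e2]
    refine setIntegral_mono_on (ContinuousOn.integrableOn_compact (isCompact_Rc _ _) ?_) i1.re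
      (isCompact_Rc _ _).measurableSet fun q hq => ?_
    · exact ContinuousOn.mul (by unfold Eg; fun_prop) ((cd.mono s1).norm.pow 2)
    · have hq' := s1 hq
      have a1 := pt (h1.trans hq'.1.le) (h2.trans hq'.1.le) (h.b₁ q hq') (h.b₂ q hq') (h.eq q hq')
      have a2 : G' q + H' q = (Eg q.1 : ℂ) * (conj (d q) * (F₁' q - q.1 / 2 * F₁ q + F₂' q) +
          conj (P q) * F₁ q + conj (T q) * F₂ q - (1 / 16 : ℂ) * ((1 - q.1 ^ 2 / 2) *
          (conj (d q) * d q) + q.1 * (conj (P q) * d q + conj (d q) * P q))) := by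
        simp only [hG', hH']; ring
      rw [a2, Complex.re_ofReal_mul]
      exact mul_le_mul_of_nonneg_left a1 (Real.exp_pos _).le
  have pos : ∀ α β, 0 ≤ ∫ q in Rc α β, Eg q.1 * ‖d q‖ ^ 2 := fun α β =>
    integral_nonneg fun q => mul_nonneg (Real.exp_pos _).le (sq_nonneg _)
  have lo : ∀ α, R < α → 0 ≤ (OI α G).re := by
    intro α hα
    refine le_of_forall_pos_le_add fun ε hε => ?_
    have a1 : ∀ᶠ s in 𝓝 R, ∀ θ ∈ Icc 0 (2 * Real.pi), (s, θ) ∈ Hc R →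
        ‖G (s, θ)‖ < ε / (2 * Real.pi) := by
      refine isCompact_Icc.eventually_forall_of_forall_eventually fun θ hθ => ?_
      have a2 : ∀ᶠ z in 𝓝[Hc R] (R, θ), ‖G z‖ < ε / (2 * Real.pi) :=
        (cG (R, θ) ⟨le_refl R, hθ⟩).norm.eventually (gt_mem_nhds (by
          simp only [hG, h.bd θ hθ, map_zero, zero_mul, mul_zero, sub_zero, norm_zero]; positivity))
      exact eventually_nhdsWithin_iff.1 a2
    obtain ⟨s, a2, a3⟩ := ((a1.filter_mono (nhdsWithin_le_nhds (s := Ioi R))).and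
      (Ioo_mem_nhdsGT hα)).exists
    have a4 := re_ge _ (OI_le (f := G) (s := s) fun θ hθ => (a2 θ hθ ⟨a3.1.le, hθ⟩).le)
    rw [mul_div_cancel₀ _ (by positivity)] at a4
    linarith [key s α a3.1 a3.2.le, pos s α]
  have hi : ∀ β, R < β → (OI β G).re ≤ 0 := by
    intro β hβ
    refine le_of_forall_pos_le_add fun ε hε => ?_
    obtain ⟨y, hM, hy⟩ := ((h.gr ε hε).and_eventually (eventually_ge_atTop β)).exists
    have hy' : R < y := hβ.trans_le hy
    have a1 := key β y hβ hy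
    have sb : Rc y y ⊆ Hc R := fun q hq => ⟨hy'.le.trans hq.1.1, hq.2⟩
    have c2 : ContinuousOn (fun θ => Eg y * (‖d (y, θ)‖ * ‖F₁ (y, θ)‖)) (Icc 0 (2 * Real.pi)) :=
      continuousOn_const.mul ((ct (h.cd.mono sb) (left_mem_Icc.2 le_rfl)).norm.mul
        (ct (h.cF.mono sb) (left_mem_Icc.2 le_rfl)).norm)
    have i2 := c2.intervalIntegrable_of_Icc (μ := volume) tp_pos
    have a3 : ∫ θ in (0 : ℝ)..(2 * Real.pi), Eg y * (‖d (y, θ)‖ * ‖F₁ (y, θ)‖) ≤ ε := by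
      rw [← ENNReal.ofReal_le_ofReal_iff hε.le, intervalIntegral.integral_of_le tp_pos,
        ofReal_integral_eq_lintegral_ofReal i2.1 (Eventually.of_forall fun θ =>
          mul_nonneg (Real.exp_pos _).le (by positivity))]
      exact hM
    have a2 : (OI y G).re ≤ ε := by
      have i1 := ii_t (cG.mono sb) (left_mem_Icc.2 le_rfl)
      have e2 := intervalIntegral.intervalIntegral_re i1
      simp only [RCLike.re_to_complex] at e2
      rw [OI, ← e2]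
      refine (intervalIntegral.integral_mono_on tp_pos ⟨i1.1.re, i1.2.re⟩ i2 fun θ _ => ?_).trans a3
      simp only [hG, RCLike.re_to_complex, Complex.re_ofReal_mul, Complex.sub_re]
      have b1 : (conj (d (y, θ)) * F₁ (y, θ)).re ≤ ‖d (y, θ)‖ * ‖F₁ (y, θ)‖ :=
        (Complex.re_le_norm _).trans (by rw [norm_mul, Complex.norm_conj])
      have b2 : 0 ≤ ((1 / 16 : ℂ) * (y * (conj (d (y, θ)) * d (y, θ)))).re := by
        have : (1 / 16 : ℂ) * (y * (conj (d (y, θ)) * d (y, θ))) =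
          ((y / 16 : ℝ) : ℂ) * (conj (d (y, θ)) * d (y, θ)) := by push_cast; ring
        rw [this, Complex.re_ofReal_mul, conj_mul_re]
        exact mul_nonneg (by linarith) (sq_nonneg _)
      exact mul_le_mul_of_nonneg_left (by linarith) (Real.exp_pos _).le
    linarith [pos β y]
  have z : ∀ x, R < x → ∀ θ ∈ Icc 0 (2 * Real.pi), d (x, θ) = 0 := by
    intro x hx θ hθ
    have s1 : Rc x (x + 1) ⊆ Ho R := fun q hq => ⟨hx.trans_le hq.1.1, hq.2⟩
    have c1 : ContinuousOn (fun q : ℝ × ℝ => Eg q.1 * ‖d q‖ ^ 2) (Rc x (x + 1)) :=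
      ContinuousOn.mul (by unfold Eg; fun_prop) ((cd.mono s1).norm.pow 2)
    have a1 : ∫ q in Rc x (x + 1), Eg q.1 * ‖d q‖ ^ 2 = 0 := le_antisymm (by
      linarith [key x (x + 1) hx (by linarith), lo x hx, hi (x + 1) (by linarith)]) (pos _ _)
    rw [setIntegral_eq_zero_iff_of_nonneg_ae (f := fun q : ℝ × ℝ => Eg q.1 * ‖d q‖ ^ 2)
      (Eventually.of_forall fun q =>
      mul_nonneg (Real.exp_pos _).le (sq_nonneg _))
      (c1.integrableOn_compact (isCompact_Rc _ _))] at a1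
    have a2 := Measure.eqOn_of_ae_eq a1 c1 continuousOn_const (by
      rw [Rc, interior_prod_eq, closure_prod_eq, interior_Icc, interior_Icc,
        closure_Ioo (by linarith), closure_Ioo (by positivity)])
      (show (x, θ) ∈ Rc x (x + 1) from ⟨⟨le_rfl, by linarith⟩, hθ⟩)
    simpa [Eg, (Real.exp_pos _).ne'] using a2
  rintro ⟨x, θ⟩ ⟨hx, hθ⟩
  rcases eq_or_lt_of_le (show R ≤ x from hx) with rfl | hx
  · exact h.bd θ hθ
  · exact z x hx θ hθ

end Crest.Agent.N250.Mt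

end
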