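import Crest.Agent.N250.Mt.PR
import Crest.Agent.N250.Lp.Lin
import Crest.Agent.N250.Cj.Area
import Crest.Agent.N250.Sw.Pg

/-!
# Row 250 (helper74): the matching `w = χ U` on an end of the shrinker
-/

set_option autoImplicit false
open MeasureTheory Set Filter Topology
open scoped ContDiff

noncomputable section

namespace Crest.Agent.N250.Mt

open Po WS Gc Cj Lp

/-- `r² + (r r_x)² + r_θ²` -/
def Qr (r : ℝ × ℝ → ℂ) (z : ℝ × ℝ) : ℂ := r z ^ 2 + (r z * d1 r z) ^ 2 + d2 r z ^ 2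

/-- a bound of the 1-jet -/
structure Bd (K : ℝ) (f : ℝ × ℝ → ℂ) (z : ℝ × ℝ) : Prop where
  cd : ContDiffAt ℝ 1 f z
  b0 : ‖f z‖ ≤ K
  b1 : ‖d1 f z‖ ≤ K
  b2 : ‖d2 f z‖ ≤ K

section Bd

variable {K L ε C : ℝ} {f g r : ℝ × ℝ → ℂ} {z : ℝ × ℝ}

theorem Bd.dif (h : Bd K f z) : DifferentiableAt ℝ f z := h.cd.differentiableAt (by simp)

theorem Bd.nn (h : Bd K f z) : 0 ≤ K := (norm_nonneg _).trans h.b0

theorem Bd.add (h : Bd K f z) (k : Bd L g z) : Bd (K + L) (fun y => f y + g y) z := by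
  have e : ∀ w, fderiv ℝ (fun y => f y + g y) z w = fderiv ℝ f z w + fderiv ℝ g z w := fun w => by
    rw [fderiv_fun_add h.dif k.dif]; rfl
  exact ⟨h.cd.add k.cd, norm_add_le_of_le h.b0 k.b0, (congrArg _ (e _)).trans_le (norm_add_le_of_le h.b1 k.b1),
    (congrArg _ (e _)).trans_le (norm_add_le_of_le h.b2 k.b2)⟩

theorem Bd.mul (h : Bd K f z) (k : Bd L g z) : Bd (2 * K * L) (fun y => f y * g y) z := by
  have m : ∀ {a b : ℂ}, ‖a‖ ≤ K → ‖b‖ ≤ L → ‖a * b‖ ≤ K * L := fun ha hb =>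
    (norm_mul _ _).trans_le (mul_le_mul ha hb (norm_nonneg _) h.nn)
  have e : ∀ w, ‖fderiv ℝ f z w‖ ≤ K → ‖fderiv ℝ g z w‖ ≤ L →
      ‖fderiv ℝ (fun y => f y * g y) z w‖ ≤ 2 * K * L := fun w h1 h2 => by
    rw [Lp.fd_mul h.dif k.dif]
    exact (norm_add_le_of_le (m h.b0 h2) (m h1 k.b0)).trans_eq (by ring)
  exact ⟨h.cd.mul k.cd, (m h.b0 k.b0).trans (by nlinarith [mul_nonneg h.nn k.nn]),
    e _ h.b1 k.b1, e _ h.b2 k.b2⟩

theorem Bd.inv (h : Bd K f z) (h1 : 1 ≤ ‖f z‖) : Bd K (fun y => (f y)⁻¹) z := by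
  have h0 : f z ≠ 0 := norm_pos_iff.1 (by linarith)
  have e : ∀ w, ‖fderiv ℝ f z w‖ ≤ K → ‖fderiv ℝ (fun y => (f y)⁻¹) z w‖ ≤ K := fun w hw => by
    have := ((hasDerivAt_inv h0).hasFDerivAt.restrictScalars ℝ).comp z h.dif.hasFDerivAt
    have e2 : fderiv ℝ (fun y => (f y)⁻¹) z w = fderiv ℝ f z w * -(f z ^ 2)⁻¹ :=
      congrArg (fun T : ℝ × ℝ →L[ℝ] ℂ => T w) this.fderiv
    rw [e2, norm_mul, _root_.norm_neg, norm_inv, norm_pow]
    exact (mul_le_of_le_one_right (norm_nonneg _)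
      (inv_le_one_of_one_le₀ (one_le_pow₀ h1))).trans hw
  exact ⟨h.cd.inv h0, by rw [norm_inv]; exact (inv_le_one_of_one_le₀ h1).trans (h1.trans h.b0),
    e _ h.b1, e _ h.b2⟩

theorem Bd.congr (h : Bd K f z) (e : g =ᶠ[𝓝 z] f) : Bd K g z :=
  ⟨h.cd.congr_of_eventuallyEq e, e.self_of_nhds ▸ h.b0,
    by rw [d1, e.fderiv_eq]; exact h.b1, by rw [d2, e.fderiv_eq]; exact h.b2⟩

theorem sq2 : 1.4 ≤ √2 ∧ √2 ≤ (1.5 : ℝ) :=
  ⟨Real.le_sqrt_of_sq_le (by norm_num), Real.sqrt_le_iff.2 (by norm_num)⟩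

theorem Nr.norm (h : Nr (√2 : ℝ) ε C r z) (hε : ε ≤ 1 / 10) : 1 ≤ ‖r z‖ ∧ ‖r z‖ ≤ 2 := by
  have h1 := abs_le.1 ((abs_norm_sub_norm_le _ _).trans h.1)
  rw [Complex.norm_real, Real.norm_of_nonneg (Real.sqrt_nonneg _)] at h1
  constructor <;> linarith [sq2.1, sq2.2, h1.1, h1.2]

theorem Nr.C0 {c : ℂ} (h : Nr c ε C r z) : 0 ≤ C := (norm_nonneg _).trans h.2.2.2.1

theorem Nr.bd (h : Nr (√2 : ℝ) ε C r z) (hε : ε ≤ 1 / 10) (hr : ContDiffAt ℝ 2 r z) :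
    Bd (C + 2) r z ∧ Bd (C + 2) (d1 r) z ∧ Bd (C + 2) (d2 r) z := by
  have c := h.C0
  have n := (h.norm hε).2
  obtain ⟨-, a1, a2, a3, a4, a5⟩ := h
  have s : ∀ w, ContDiffAt ℝ 1 (fun y => fderiv ℝ r y w) z := fun w =>
    (hr.fderiv_right (m := 1) (by norm_num)).clm_apply contDiffAt_const
  exact ⟨⟨hr.of_le (by norm_num), by linarith, by linarith, by linarith⟩,
    ⟨s _, by linarith, by linarith, by rw [d21 hr]; linarith⟩,
    ⟨s _, by linarith, by linarith, by linarith⟩⟩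

/-- the bound of the jet of `Qr` -/
def cQ (K : ℝ) : ℝ := 2 * K * K + 2 * (2 * K * K) * (2 * K * K) + 2 * K * K

theorem Nr.bdQ (h : Nr (√2 : ℝ) ε C r z) (hε : ε ≤ 1 / 10) (hr : ContDiffAt ℝ 2 r z) :
    Bd (cQ (C + 2)) (Qr r) z := by
  obtain ⟨a, b, c⟩ := h.bd hε hr
  exact (((a.mul a).add ((a.mul b).mul (a.mul b))).add (c.mul c)).congr
    (.of_forall fun y => by simp only [Qr, sq])

theorem Nr.Qr_sub (h : Nr (√2 : ℝ) ε C r z) (hε : ε ≤ 1 / 10) :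
    ‖Qr r z * r z - 2 * (√2 : ℝ)‖ ≤ 9 * ε := by
  obtain ⟨-, n⟩ := h.norm hε
  obtain ⟨a0, a1, a2, -⟩ := h
  have e0 := (norm_nonneg _).trans a0
  set s : ℂ := ((√2 : ℝ) : ℂ)
  have hs : ‖s‖ ≤ 1.5 := by
    rw [Complex.norm_real, Real.norm_of_nonneg (Real.sqrt_nonneg _)]; exact sq2.2
  have n' : ‖r z‖ ≤ 1.6 := by
    have := norm_add_le (r z - s) s
    rw [sub_add_cancel] at this; linarith
  have e : Qr r z * r z - 2 * s = (r z - s) * (r z * r z + r z * s + s * s) +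
      r z * r z * r z * (d1 r z * d1 r z) + r z * (d2 r z * d2 r z) := by
    rw [Qr]; linear_combination s * s2
  have m : ∀ {a b : ℂ} {x y : ℝ}, ‖a‖ ≤ x → ‖b‖ ≤ y → ‖a * b‖ ≤ x * y := fun ha hb =>
    (norm_mul _ _).trans_le (mul_le_mul ha hb (norm_nonneg _) ((norm_nonneg _).trans ha))
  rw [e]
  refine (norm_add_le_of_le (norm_add_le_of_le (m a0 (norm_add_le_of_le (norm_add_le_of_le
    (m n' n') (m n' hs)) (m hs hs))) (m (m (m n' n') n') (m a1 a1))) (m n' (m a2 a2))).trans ?_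
  nlinarith

theorem Nr.Qr_ge (h : Nr (√2 : ℝ) ε C r z) (hε : ε ≤ 1 / 10) : 1 ≤ ‖Qr r z * r z‖ := by
  have h1 := abs_le.1 ((abs_norm_sub_norm_le _ _).trans (h.Qr_sub hε))
  rw [norm_mul (2 : ℂ), Complex.norm_real, Real.norm_of_nonneg (Real.sqrt_nonneg _),
    Complex.norm_two] at h1
  linarith [sq2.1, h1.1]

theorem cn_of {n : ℕ} {R : ℝ} (h : ∀ z : ℝ × ℝ, R ≤ z.1 → ContDiffAt ℝ n f z)
    (hp : ∀ x θ, R < x → f (x, θ + 2 * Real.pi) = f (x, θ)) : Cn n R f :=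
  ⟨fun z hz => ((h z hz).of_le (by exact_mod_cast Nat.sub_le n 1)).contDiffWithinAt,
    fun z hz => (h z (le_of_lt hz)).contDiffWithinAt, hp⟩

end Bd

/-- MATCHING in the polar chart, in the normalisation of the glued system -/
theorem match_q : ∃ ε : ℝ, 0 < ε ∧ ε ≤ 1 / 10 ∧ ∀ C : ℝ, ∃ R₁ : ℝ, ∀ R, R₁ ≤ R →
    ∀ r₀ r₁ r₂ χ : ℝ × ℝ → ℂ, (∀ z : ℝ × ℝ, R ≤ z.1 → ContDiffAt ℝ 2 r₀ z ∧ ContDiffAt ℝ 2 r₂ z ∧
      Bd C χ z ∧ ‖1 - χ z‖ + ‖χ z‖ ≤ 1 ∧ Nr (√2 : ℝ) ε C r₀ z ∧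
      (χ =ᶠ[𝓝 z] 0 ∨ Nr (√2 : ℝ) ε C r₂ z)) →
    (∀ x θ, R < x → r₀ (x, θ + 2 * Real.pi) = r₀ (x, θ) ∧ r₂ (x, θ + 2 * Real.pi) = r₂ (x, θ) ∧
      χ (x, θ + 2 * Real.pi) = χ (x, θ)) → Cn 2 R r₁ →
    (∀ z : ℝ × ℝ, R < z.1 → χ =ᶠ[𝓝 z] 0 ∨
      (Nr (√2 : ℝ) ε C r₁ z ∧ PRj z.1 (j1 r₁ z) (j2 r₁ z) = 0)) →
    (∀ θ, r₂ (R, θ) = r₁ (R, θ)) →
    (Lo fun z => ‖r₂ z - r₁ z‖ * (‖d1 r₂ z - d1 r₁ z‖ + ‖d2 r₂ z - d2 r₁ z‖)) →
    (∀ z : ℝ × ℝ, R < z.1 → (1 - χ z) * (PL z.1 (j1 r₀ z) (j2 r₀ z) (j1 r₂ z - j1 r₁ z)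
      (j2 r₂ z - j2 r₁ z) / (Qr r₀ z * r₀ z)) +
        χ z * (PRj z.1 (j1 r₂ z) (j2 r₂ z) / (Qr r₂ z * r₂ z)) = 0) →
    ∀ z : ℝ × ℝ, R ≤ z.1 → r₂ z = r₁ z := by
  obtain ⟨ε₀, h0, H⟩ := match_r
  set ε := min (ε₀ / 18) (1 / 10)
  have e1 : ε ≤ ε₀ / 18 := min_le_left _ _
  have e2 : ε ≤ 1 / 10 := min_le_right _ _
  have e0 : 0 < ε := lt_min (by positivity) (by norm_num)
  refine ⟨ε, e0, e2, fun C => ?_⟩
  set K := 2 * cQ (C + 2) * (C + 2)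
  set C' := max C (2 * C * (2 * K * K))
  obtain ⟨R₁, H⟩ := H C'
  refine ⟨R₁, fun R hR r₀ r₁ r₂ χ h hp h1 h1' hb hl he => ?_⟩
  have up : ∀ {r z}, Nr (√2 : ℝ) ε C r z → Nr (√2 : ℝ) ε₀ C' r z := fun ⟨a, b, c, d, e, f⟩ =>
    have : ε ≤ ε₀ := by linarith
    have k : C ≤ C' := le_max_left _ _
    ⟨a.trans this, b.trans this, c.trans this, d.trans k, e.trans k, f.trans k⟩
  set m : ℝ × ℝ → ℂ := fun z => Qr r₀ z * r₀ z * (Qr r₂ z * r₂ z)⁻¹ with hm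
  set B : ℝ × ℝ → ℂ := fun z => χ z * m z with hB
  have z0 : ∀ {z}, χ =ᶠ[𝓝 z] 0 → B =ᶠ[𝓝 z] fun _ => 0 := fun hz =>
    hz.mono fun y hy => by simp [hB, hy]
  have bm : ∀ z : ℝ × ℝ, R ≤ z.1 → Nr (√2 : ℝ) ε C r₂ z → Bd (2 * K * K) m z ∧ ‖m z - 1‖ ≤ ε₀ := by
    intro z hz n2
    obtain ⟨c0, c2, -, -, n0, -⟩ := h z hz
    have g := n2.Qr_ge e2
    refine ⟨((n0.bdQ e2 c0).mul (n0.bd e2 c0).1).mul
      (((n2.bdQ e2 c2).mul (n2.bd e2 c2).1).inv g), ?_⟩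
    have ne : Qr r₂ z * r₂ z ≠ 0 := norm_pos_iff.1 (by linarith)
    have : m z - 1 = ((Qr r₀ z * r₀ z - 2 * (√2 : ℝ)) - (Qr r₂ z * r₂ z - 2 * (√2 : ℝ))) *
        (Qr r₂ z * r₂ z)⁻¹ := by
      rw [hm, sub_sub_sub_cancel_right, sub_mul, mul_inv_cancel₀ ne]
    rw [this, norm_mul, norm_inv]
    refine (mul_le_of_le_one_right (norm_nonneg _) (inv_le_one_of_one_le₀ g)).trans ?_
    refine (norm_sub_le_of_le (n0.Qr_sub e2) (n2.Qr_sub e2)).trans (by linarith)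
  have d0 : ∀ w z : ℝ × ℝ, fderiv ℝ (fun _ : ℝ × ℝ => (0 : ℂ)) z w = 0 := fun w z => by simp
  have dA : ∀ w z : ℝ × ℝ, fderiv ℝ (fun y => 1 - χ y) z w = -fderiv ℝ χ z w := fun w z => by
    rw [fderiv_const_sub]; rfl
  refine H R hR r₀ r₁ r₂ (fun z => 1 - χ z) B (cn_of (fun z hz => (h z hz).1) fun x θ hx =>
    (hp x θ hx).1) h1 (cn_of (fun z hz => (h z hz).2.1) fun x θ hx => (hp x θ hx).2.1)
    (cn_of (fun z hz => contDiffAt_const.sub (h z hz).2.2.1.cd) fun x θ hx => by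
      rw [(hp x θ hx).2.2]) (cn_of (fun z hz => ?_) fun x θ hx => ?_) (fun z hz => ?_)
    (fun z hz => up (h z hz.le).2.2.2.2.1) (fun z hz => ?_) hb hl fun z hz => ?_
  · rcases (h z hz).2.2.2.2.2 with k | k
    · exact contDiffAt_const.congr_of_eventuallyEq (z0 k)
    · exact (h z hz).2.2.1.cd.mul (bm z hz k).1.cd
  · simp only [hB, hm, Qr, d1, d2, (hp x θ hx).1, (hp x θ hx).2.1, (hp x θ hx).2.2,
      per_fd (fun x θ hx => (hp x θ hx).1) hx, per_fd (fun x θ hx => (hp x θ hx).2.1) hx]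
  · obtain ⟨-, -, bχ, n1, -, k⟩ := h z hz.le
    have kc : C ≤ C' := le_max_left _ _
    have a1 : ‖d1 (fun y => 1 - χ y) z‖ ≤ C' := by rw [d1, dA, _root_.norm_neg]; exact bχ.b1.trans kc
    have a2 : ‖d2 (fun y => 1 - χ y) z‖ ≤ C' := by rw [d2, dA, _root_.norm_neg]; exact bχ.b2.trans kc
    rcases k with k | k
    · have k0 : χ z = 0 := k.self_of_nhds
      have c0 := bχ.nn.trans kc
      refine ⟨by simp [hB, k0], by simp [hB, k0, h0.le], a1, a2, ?_, ?_⟩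
      · rw [d1, (z0 k).fderiv_eq, d0]; simpa using c0
      · rw [d2, (z0 k).fderiv_eq, d0]; simpa using c0
    · obtain ⟨b, b'⟩ := bm z hz.le k
      have c1 : ‖χ z‖ ≤ 1 := by linarith [norm_nonneg (1 - χ z)]
      have q : ‖χ z * (m z - 1)‖ ≤ ‖m z - 1‖ := by
        rw [norm_mul]; exact mul_le_of_le_one_left (norm_nonneg _) c1
      have q2 : ‖m z - 1‖ ≤ 1 := by
        obtain ⟨-, -, -, -, n0, -⟩ := h z hz.le
        have g := k.Qr_ge e2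
        have ne : Qr r₂ z * r₂ z ≠ 0 := norm_pos_iff.1 (by linarith)
        have g2 : 1.9 ≤ ‖Qr r₂ z * r₂ z‖ := by
          have h1 := abs_le.1 ((abs_norm_sub_norm_le _ _).trans (k.Qr_sub e2))
          rw [norm_mul (2 : ℂ), Complex.norm_real, Real.norm_of_nonneg (Real.sqrt_nonneg _),
            Complex.norm_two] at h1
          linarith [sq2.1, h1.1]
        have : m z - 1 = ((Qr r₀ z * r₀ z - 2 * (√2 : ℝ)) - (Qr r₂ z * r₂ z - 2 * (√2 : ℝ))) /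
            (Qr r₂ z * r₂ z) := by
          rw [hm, sub_sub_sub_cancel_right, sub_div, div_self ne, div_eq_mul_inv]
        rw [this, norm_div, div_le_one (by linarith)]
        exact (norm_sub_le_of_le (n0.Qr_sub e2) (k.Qr_sub e2)).trans (by linarith)
      have kb := (bχ.mul b)
      refine ⟨?_, ?_, a1, a2, kb.b1.trans (le_max_right _ _), kb.b2.trans (le_max_right _ _)⟩
      · have : B z = χ z + χ z * (m z - 1) := by simp only [hB]; ring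
        rw [this]
        linarith [norm_add_le (χ z) (χ z * (m z - 1))]
      · have : 1 - χ z + B z - 1 = χ z * (m z - 1) := by simp only [hB]; ring
        rw [this]; linarith
  · rcases (h z hz.le).2.2.2.2.2 with k | k
    · exact .inl ⟨(z0 k).self_of_nhds, by rw [d1, (z0 k).fderiv_eq, d0],
        by rw [d2, (z0 k).fderiv_eq, d0]⟩
    · rcases h1' z hz with k' | k'
      · exact .inl ⟨(z0 k').self_of_nhds, by rw [d1, (z0 k').fderiv_eq, d0],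
          by rw [d2, (z0 k').fderiv_eq, d0]⟩
      · exact .inr ⟨up k'.1, up k⟩
  · have g := (h z hz.le).2.2.2.2.1.Qr_ge e2
    have ne : Qr r₀ z * r₀ z ≠ 0 := norm_pos_iff.1 (by linarith)
    have k : χ z * PRj z.1 (j1 r₁ z) (j2 r₁ z) = 0 := by
      rcases h1' z hz with k | k
      · rw [k.self_of_nhds]; exact zero_mul _
      · rw [k.2, mul_zero]
    have := congrArg (· * (Qr r₀ z * r₀ z)) (he z hz)
    simp only [add_mul, mul_assoc (1 - χ z), div_mul_cancel₀ _ ne, zero_mul] at this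
    simp only [hB, hm]
    rw [div_eq_mul_inv] at this
    linear_combination this - Qr r₀ z * r₀ z * (Qr r₂ z * r₂ z)⁻¹ * k

theorem hd_mul (a b c d : ℂ) :
    HasDerivAt (fun s : ℂ => (a + s * b) * (c + s * d)) (a * d + b * c) 0 := by
  have h : ∀ a b : ℂ, HasDerivAt (fun s : ℂ => a + s * b) b 0 := fun a b => by
    simpa using ((hasDerivAt_id (0 : ℂ)).mul_const b).const_add a
  simpa [add_comm] using (h a b).fun_mul (h c d)

variable {X : Type} [TopologicalSpace X] [MeasurableSpace X] {G : Geo X} {ψ : ℝ × ℝ → X}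
  {Q : N222.E (Fin 3) ≃ₗᵢ[ℝ] N222.E (Fin 3)} {r : ℝ × ℝ → ℝ} {q : ℝ × ℝ}

/-- `PL` is `linEL` up to the unit `Qr` -/
theorem PL_eq (h : Pl G ψ Q r q) {D : ℝ × ℝ → ℂ} (hD : ContDiffAt ℝ 2 D q) :
    PL q.1 (j1 (fun y => (r y : ℂ)) q) (j2 (fun y => (r y : ℂ)) q) (j1 D q) (j2 D q) =
      linEL (vS r) (fun y => r y * D y) q * Qr (fun y => (r y : ℂ)) q := by
  set R : ℝ × ℝ → ℂ := fun y => (r y : ℂ)
  have p := h.pc
  let a : Fin 6 → ℂ → ℂ := fun i s => jet R q i + s * jet D q i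
  let J : ℂ → Fin 6 → ℂ := fun s => ![a 0 s * a 0 s / 2, a 0 s * a 1 s, a 0 s * a 2 s,
    a 0 s * a 3 s + a 1 s * a 1 s, a 0 s * a 4 s + a 1 s * a 2 s, a 0 s * a 5 s + a 2 s * a 2 s]
  have J0 : J 0 = jet (vS r) q := by
    funext i
    induction i using fin6
    · simp [J, a, vS, sq, R]
    · simpa [J, a] using p.v1.symm
    · simpa [J, a] using p.v2.symm
    · simpa [J, a] using p.v11.symm
    · simpa [J, a] using p.v12.symm
    · simpa [J, a] using p.v22.symm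
  have hJ : HasDerivAt J (jet (fun y => R y * D y) q) 0 := by
    rw [jet_mul p.smr hD, hasDerivAt_pi]
    intro i
    induction i using fin6
    · exact ((hd_mul ..).div_const 2).congr_deriv (by simp [jm]; ring)
    · exact (hd_mul ..).congr_deriv (by simp [jm]; ring)
    · exact (hd_mul ..).congr_deriv (by simp [jm]; ring)
    · exact ((hd_mul ..).fun_add (hd_mul ..)).congr_deriv (by simp [jm]; ring)
    · exact ((hd_mul ..).fun_add (hd_mul ..)).congr_deriv (by simp [jm]; ring)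
    · exact ((hd_mul ..).fun_add (hd_mul ..)).congr_deriv (by simp [jm]; ring)
  let Qs : ℂ → ℂ := fun s => a 0 s ^ 2 + (a 0 s * a 1 s) ^ 2 + a 2 s ^ 2
  have dQ : DifferentiableAt ℂ Qs 0 := by simp only [Qs, a]; fun_prop
  have Q0 : Qs 0 = Qr R q := by simp [Qs, a, Qr]
  have hQ : Qr R q ≠ 0 := fun e => h.QC_ne (p.QC_eq.trans e)
  have e1 : ∀ᶠ s in 𝓝 (0 : ℂ), a 0 s ≠ 0 :=
    (show ContinuousAt (a 0) 0 by simp only [a]; fun_prop).eventually_ne (by simpa [a, R] using h.ne)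
  have e2 : ∀ᶠ s in 𝓝 (0 : ℂ), Qs s ≠ 0 := dQ.continuousAt.eventually_ne (Q0 ▸ hQ)
  have k := (hasDerivAt_ELj hJ J0 h.vS_ne h.QC_ne).fun_mul dQ.hasDerivAt
  rw [J0, h.EL_zero, zero_mul, add_zero, Q0] at k
  refine (hasDerivAt_PR ..).unique (k.congr_of_eventuallyEq ?_)
  filter_upwards [e1, e2] with s h1 h2
  have := EL_r h1 h2 q.1 (a 3 s) (a 4 s) (a 5 s)
  rw [sq (a 0 s)] at this
  rw [show Qs s = a 0 s * a 0 s + (a 0 s * a 1 s) ^ 2 + a 2 s ^ 2 by simp only [Qs]; ring]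
  exact this.symm

/-- the Jacobi operator in the `r`-variable -/
theorem LL_pol (h : Pl G ψ Q r q) (w : G.SmC) {D : ℝ × ℝ → ℂ} (hD : ContDiffAt ℝ 2 D q)
    (e : ∀ᶠ y in 𝓝 q, w.1 (ψ y) = nom G ψ Q y * D y) : (G.SC.LL w).1 (ψ q) = nom G ψ Q q *
      (PL q.1 (j1 (fun y => (r y : ℂ)) q) (j2 (fun y => (r y : ℂ)) q) (j1 D q) (j2 D q) /
        (Qr (fun y => (r y : ℂ)) q * r q)) := by
  have hQ : Qr (fun y => (r y : ℂ)) q ≠ 0 := fun e => h.QC_ne (h.pc.QC_eq.trans e)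
  rw [PL_eq h hD, h.linpol w (d := fun y => r y * D y), tau]
  · field_simp [h.ne, h.nom_ne]
  · filter_upwards [e, h.ev] with y h1 h2
    rw [h1, tau]; field_simp [h2.nom_ne]

/-- the normalised equation `ELX / (2 G ⟨N, Z⟩)` in the `r`-variable -/
theorem EQ_pol {Y : Fin 3 → G.SmC} {f : Fin 3 → Fin 3 → ℂ} {s v : ℝ × ℝ → ℂ}
    (h : Pc G ψ Y f s v q) (hs : Cj.sg G ψ q ≠ 0) (hQ : Qr s q ≠ 0) {ν : ℂ} (hν : ν ≠ 0) :
    (G.SC.ELX Y).1 (ψ q) / (2 * (G.SC.GX Y).1 (ψ q) *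
      dot (val (G.SC.NX Y) (ψ q)) (frC f q.2 0 ν⁻¹ 0)) =
      -(ν * (PRj q.1 (j1 s q) (j2 s q) / (Qr s q * s q))) := by
  have h1 := h.EL_r
  have h2 := h.G_pol
  have h3 := h.dot_N (frC f q.2 0 ν⁻¹ 0)
  rw [h.on.dot_frC] at h3
  rw [h.QC_eq] at h2
  have e1 := eq_div_of_mul_eq (pow_ne_zero 3 hs) ((mul_comm _ _).trans h1)
  have e2 := eq_div_of_mul_eq (pow_ne_zero 2 hs) ((mul_comm _ _).trans h2)
  have e3 := eq_div_of_mul_eq hs ((mul_comm _ _).trans h3)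
  have := h.on.dl_ne
  have := h.ne
  rw [e1, e2, e3]
  change _ / (2 * (Qr s q / _) * _) = -(ν * (PR _ _ _ _ _ _ _ / _))
  simp only [j1, j2, mul_zero, zero_add, add_zero]
  field_simp

/-- `EL v = 0` in the `r`-variable -/
theorem PRj_zero {s v : ℝ × ℝ → ℂ} (hs : ContDiffAt ℝ 2 s q) (h0 : s q ≠ 0) (hQ : Qr s q ≠ 0)
    (hv : ∀ᶠ y in 𝓝 q, v y = s y ^ 2 / 2) (he : ELC v q = 0) :
    PRj q.1 (j1 s q) (j2 s q) = 0 := by
  have d := hs.differentiableAt (by simp)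
  have := EL_r h0 hQ q.1 (d1 (d1 s) q) (d1 (d2 s) q) (d2 (d2 s) q)
  rw [← hv.self_of_nhds, show s q * d1 s q = d1 v q from (fd_vC d hv _).symm,
    show s q * d2 s q = d2 v q from (fd_vC d hv _).symm,
    show s q * d1 (d1 s) q + d1 s q * d1 s q = d1 (d1 v) q from (fd2_vC hs hv _ _).symm,
    show s q * d1 (d2 s) q + d1 s q * d2 s q = d1 (d2 v) q from (fd2_vC hs hv _ _).symm,
    show s q * d2 (d2 s) q + d2 s q * d2 s q = d2 (d2 v) q from (fd2_vC hs hv _ _).symm] at this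
  exact this.symm.trans (mul_eq_zero_of_left he _)

variable [T2Space X] [SecondCountableTopology X] [BorelSpace X]

omit [T2Space X] [SecondCountableTopology X] [BorelSpace X] in
theorem lint_sq {f : G.SmC} (h : G.gC f ≠ ⊤) : ∫⁻ p, ENNReal.ofReal (‖f.1 p‖ ^ 2) ∂G.ga ≠ ⊤ := by
  have := lintegral_rpow_enorm_lt_top_of_eLpNorm_lt_top two_ne_zero ENNReal.ofNat_ne_top h.lt_top
  refine ne_of_eq_of_ne (lintegral_congr fun p => ?_) this.ne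
  rw [ENNReal.ofReal_pow (norm_nonneg _), ofReal_norm]; simp

/-- Gaussian `H¹` gives `Lo` -/
theorem lo_geo {R ε C : ℝ} (hP : ∀ q : ℝ × ℝ, R < q.1 → Pl G ψ Q r q ∧
      Nr (√2 : ℝ) ε C (fun y => (r y : ℂ)) q) (hε : ε ≤ 1 / 10)
    (hi : InjOn ψ (Ioi R ×ˢ Ico 0 (2 * Real.pi))) {w : G.SmC} (h0 : G.gC w ≠ ⊤)
    (hL : G.gC (G.SC.LL w) ≠ ⊤) :
    Lo fun q => ‖w.1 (ψ q)‖ ^ 2 + ∑ a, ‖(G.SC.D a w).1 (ψ q)‖ ^ 2 := by
  set φ : X → ℝ := fun p => ‖w.1 p‖ ^ 2 + ∑ a, ‖(G.SC.D a w).1 p‖ ^ 2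
  have cw : ∀ f : G.SmC, Continuous fun p => ‖f.1 p‖ ^ 2 := fun f =>
    (N222.Imm.Sm.continuous f.2).norm.pow 2
  have cφ : Continuous φ := (cw w).add (continuous_finsetSum _ fun a _ => cw _)
  have fin : ∫⁻ p, ENNReal.ofReal (φ p) ∂G.ga ≠ ⊤ := by
    have : ∀ p, ENNReal.ofReal (φ p) = ENNReal.ofReal (‖w.1 p‖ ^ 2) +
        ∑ a, ENNReal.ofReal (‖(G.SC.D a w).1 p‖ ^ 2) := fun p => by
      rw [ENNReal.ofReal_add (by positivity) (by positivity),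
        ENNReal.ofReal_sum_of_nonneg fun _ _ => by positivity]
    simp only [this]
    rw [lintegral_add_left (cw w).measurable.ennreal_ofReal,
      lintegral_finsetSum _ fun a _ => (cw _).measurable.ennreal_ofReal]
    exact ENNReal.add_ne_top.2 ⟨lint_sq h0,
      ENNReal.sum_ne_top.2 fun a _ => lint_sq (Geo.gC_D_ne_top h0 hL a)⟩
  have I : Inj G.M ψ (Ioi R ×ˢ Ico 0 (2 * Real.pi)) :=
    ⟨measurableSet_Ioi.prod measurableSet_Ico, fun q hq => (hP q hq.1).1.cont.self_of_nhds,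
      fun q hq => (hP q hq.1).1.pm.sm.of_le (by norm_num), hi⟩
  refine lo_of_lint (R := R) (φ := fun q => φ (ψ q)) (fun q hq =>
    (cφ.continuousAt.comp (hP q hq.1).1.cont.self_of_nhds).continuousWithinAt) ?_
  have ae : Ho R =ᵐ[volume] (Ioi R ×ˢ Ico 0 (2 * Real.pi) : Set (ℝ × ℝ)) :=
    Measure.set_prod_ae_eq (s := Ioi R) (.refl _ _) Ico_ae_eq_Icc.symm
  have cE : Continuous fun p => Real.exp (-G.S.x2.1 p / 4) :=
    ((N222.Imm.Sm.continuous G.S.x2.2).neg.div_const 4).rexp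
  rw [Geo.ga, lintegral_withDensity_eq_lintegral_mul _ cE.measurable.ennreal_ofReal
    cφ.measurable.ennreal_ofReal] at fin
  have fin2 := ne_top_of_le_ne_top fin
    (setLIntegral_le_lintegral (ψ '' (Ioi R ×ˢ Ico 0 (2 * Real.pi))) _)
  rw [I.lint] at fin2
  rw [setLIntegral_congr ae]
  refine ne_top_of_le_ne_top (ENNReal.mul_ne_top (a := ENNReal.ofReal (Real.exp 1))
    ENNReal.ofReal_ne_top fin2) ?_
  rw [← lintegral_const_mul' _ _ ENNReal.ofReal_ne_top]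
  refine setLIntegral_mono' I.meas fun q hq => ?_
  obtain ⟨p, n⟩ := hP q hq.1
  obtain ⟨n1, n2⟩ := n.norm hε
  rw [Complex.norm_real, Real.norm_of_nonneg p.pos.le] at n1 n2
  have φ0 : 0 ≤ φ (ψ q) := by positivity
  have dt : 1 ≤ √(det (G.M.x ∘ ψ) q) := by
    have := p.pm.sg_sq.symm.trans (p.sg_sq.trans p.QC_eq)
    rw [Real.one_le_sqrt, Complex.ofReal_inj.1 this]
    nlinarith [sq_nonneg (r q * d1 r q), sq_nonneg (d2 r q)]
  have x2 : G.S.x2.1 (ψ q) = q.1 ^ 2 + r q ^ 2 := by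
    rw [← norm_pX_sq (Q := Q), ← p.eq.self_of_nhds, EuclideanSpace.real_norm_sq_eq]
    simp only [sq]; rw [← Geo.ev_apply, Mov.x2, map_sum]; rfl
  simp only [Pi.mul_apply]
  rw [← ENNReal.ofReal_mul (Real.exp_pos _).le, ← ENNReal.ofReal_mul (Real.sqrt_nonneg _),
    ← ENNReal.ofReal_mul (Real.exp_pos _).le]
  refine ENNReal.ofReal_le_ofReal ?_
  have : Eg q.1 ≤ Real.exp 1 * Real.exp (-G.S.x2.1 (ψ q) / 4) := by
    rw [Eg, ← Real.exp_add, x2]; exact Real.exp_le_exp.2 (by nlinarith)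
  calc _ ≤ Real.exp 1 * Real.exp (-G.S.x2.1 (ψ q) / 4) * φ (ψ q) * 1 := by
        rw [mul_one]; exact mul_le_mul_of_nonneg_right this φ0
    _ ≤ Real.exp 1 * Real.exp (-G.S.x2.1 (ψ q) / 4) * φ (ψ q) * √(det (G.M.x ∘ ψ) q) := by gcongr
    _ = _ := by ring

end Crest.Agent.N250.Mt

end
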