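import Crest.Agent.N250.Mt.Flux

/-!
# Row 250, matching (helper74): non-divergence form and quasilinear operators
-/

set_option autoImplicit false
open MeasureTheory Set Filter Topology Metric

noncomputable section

namespace Crest.Agent.N250.Mt

/-- the 2-jet `(f, f_x, f_θ, f_xx, f_xθ, f_θθ)` on the half strip, `C¹` up to `x = R` -/
structure Jt (R : ℝ) (f p q r m t : ℝ × ℝ → ℂ) : Prop where
  cf : ContinuousOn f (Hc R)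
  cp : ContinuousOn p (Hc R)
  cq : ContinuousOn q (Hc R)
  cr : ContinuousOn r (Ho R)
  cm : ContinuousOn m (Ho R)
  ct : ContinuousOn t (Ho R)
  fx : Dx R f p
  fy : Dy R f q
  px : Dx R p r
  qx : Dx R q m
  py : Dy R p m
  qy : Dy R q t
  pf : Pe R f
  pp : Pe R p
  pq : Pe R q

theorem Jt.sub {R : ℝ} {f p q r m t f' p' q' r' m' t' : ℝ × ℝ → ℂ} (h : Jt R f p q r m t)
    (h' : Jt R f' p' q' r' m' t') : Jt R (fun z => f z - f' z) (fun z => p z - p' z)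
    (fun z => q z - q' z) (fun z => r z - r' z) (fun z => m z - m' z) (fun z => t z - t' z) :=
  ⟨h.cf.sub h'.cf, h.cp.sub h'.cp, h.cq.sub h'.cq, h.cr.sub h'.cr, h.cm.sub h'.cm, h.ct.sub h'.ct,
    fun z hz => (h.fx z hz).sub (h'.fx z hz), fun x hx θ hθ => (h.fy x hx θ hθ).sub (h'.fy x hx θ hθ),
    fun z hz => (h.px z hz).sub (h'.px z hz), fun z hz => (h.qx z hz).sub (h'.qx z hz),
    fun x hx θ hθ => (h.py x hx θ hθ).sub (h'.py x hx θ hθ),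
    fun x hx θ hθ => (h.qy x hx θ hθ).sub (h'.qy x hx θ hθ),
    fun x hx => by simp only [h.pf x hx, h'.pf x hx], fun x hx => by simp only [h.pp x hx, h'.pp x hx],
    fun x hx => by simp only [h.pq x hx, h'.pq x hx]⟩

/-- a `C¹` coefficient -/
structure J1 (R : ℝ) (a ax ay : ℝ × ℝ → ℂ) : Prop where
  c : ContinuousOn a (Hc R)
  cx : ContinuousOn ax (Ho R)
  cy : ContinuousOn ay (Ho R)
  dx : Dx R a ax
  dy : Dy R a ay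
  pe : Pe R a

theorem J1.add {R : ℝ} {a ax ay b bx by' : ℝ × ℝ → ℂ} (h : J1 R a ax ay) (h' : J1 R b bx by') :
    J1 R (fun z => a z + b z) (fun z => ax z + bx z) (fun z => ay z + by' z) :=
  ⟨h.c.add h'.c, h.cx.add h'.cx, h.cy.add h'.cy, fun z hz => (h.dx z hz).add (h'.dx z hz),
    fun x hx θ hθ => (h.dy x hx θ hθ).add (h'.dy x hx θ hθ),
    fun x hx => by simp only [h.pe x hx, h'.pe x hx]⟩

theorem J1.mul {R : ℝ} {a ax ay b bx by' : ℝ × ℝ → ℂ} (h : J1 R a ax ay) (h' : J1 R b bx by') :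
    J1 R (fun z => a z * b z) (fun z => ax z * b z + a z * bx z)
      (fun z => ay z * b z + a z * by' z) :=
  ⟨h.c.mul h'.c, (h.cx.mul (h'.c.mono (Ho_sub R))).add ((h.c.mono (Ho_sub R)).mul h'.cx),
    (h.cy.mul (h'.c.mono (Ho_sub R))).add ((h.c.mono (Ho_sub R)).mul h'.cy),
    fun z hz => ((h.dx z hz).mul (h'.dx z hz) :),
    fun x hx θ hθ => ((h.dy x hx θ hθ).mul (h'.dy x hx θ hθ) :),
    fun x hx => by simp only [h.pe x hx, h'.pe x hx]⟩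

/-- first order jets -/
abbrev W : Type := ℂ × ℂ × ℂ

theorem Jt.comp {R : ℝ} {f p q r m t : ℝ × ℝ → ℂ} (h : Jt R f p q r m t) {φ : W → ℂ}
    (hφ : ContDiff ℂ 1 φ) : J1 R (fun z => φ (f z, p z, q z))
      (fun z => fderiv ℂ φ (f z, p z, q z) (p z, r z, m z))
      (fun z => fderiv ℂ φ (f z, p z, q z) (q z, m z, t z)) := by
  have c0 : ContinuousOn (fun z => ((f z, p z, q z) : W)) (Hc R) := h.cf.prodMk (h.cp.prodMk h.cq)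
  have c1 := (hφ.continuous_fderiv one_ne_zero).comp_continuousOn (c0.mono (Ho_sub R))
  have d0 : ∀ j, HasFDerivAt φ ((fderiv ℂ φ j).restrictScalars ℝ) j := fun j =>
    ((hφ.differentiable one_ne_zero j).hasFDerivAt).restrictScalars ℝ
  exact ⟨hφ.continuous.comp_continuousOn c0,
    c1.clm_apply ((h.cp.mono (Ho_sub R)).prodMk (h.cr.prodMk h.cm)),
    c1.clm_apply ((h.cq.mono (Ho_sub R)).prodMk (h.cm.prodMk h.ct)),
    fun z hz => ((d0 _).comp_hasDerivAt z.1 ((h.fx z hz).prodMk ((h.px z hz).prodMk (h.qx z hz))) :),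
    fun x hx θ hθ => ((d0 _).comp_hasDerivAt θ ((h.fy x hx θ hθ).prodMk
      ((h.py x hx θ hθ).prodMk (h.qy x hx θ hθ))) :),
    fun x hx => by simp only [h.pf x hx, h.pp x hx, h.pq x hx]⟩

/-- **uniqueness, non-divergence form** -/
theorem nd {R C : ℝ} {d p q r m t a ax ay b bx by' c cx cy : ℝ × ℝ → ℂ} (J : Jt R d p q r m t)
    (ha : J1 R a ax ay) (hb : J1 R b bx by') (hc : J1 R c cx cy)
    (bd : ∀ θ ∈ Icc 0 (2 * Real.pi), d (R, θ) = 0)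
    (sm : ∀ z ∈ Ho R, ‖a z - 1‖ ≤ 1 / 100 ∧ ‖b z‖ ≤ 1 / 100 ∧ ‖c z - 1 / 2‖ ≤ 1 / 100 ∧
      ‖ax z‖ ≤ C ∧ ‖bx z‖ ≤ C ∧ ‖cy z‖ ≤ C)
    (eq : ∀ z ∈ Ho R, ‖a z * r z + b z * m z + c z * t z - z.1 / 2 * p z‖ ≤
      (z.1 / 200 + C) * (‖p z‖ + ‖q z‖) + C * (1 + z.1) * ‖d z‖)
    (gr : Lo fun z => ‖d z‖ * (‖p z‖ + ‖q z‖))
    (h1 : 1000 ≤ R) (h2 : 3000 * C ≤ R) : ∀ z ∈ Hc R, d z = 0 := by
  have s := Ho_sub R
  have n1 : ∀ z ∈ Ho R, ‖a z * p z + b z * q z - p z‖ ≤ (‖p z‖ + ‖q z‖) / 100 := fun z hz => by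
    obtain ⟨s1, s2, -⟩ := sm z hz
    rw [show a z * p z + b z * q z - p z = (a z - 1) * p z + b z * q z by ring]
    refine (norm_add_le _ _).trans ?_
    rw [norm_mul, norm_mul]
    nlinarith [norm_nonneg (p z), norm_nonneg (q z)]
  refine Flux.eq_zero (C := 3 * C) (P := p) (T := q) (F₁ := fun z => a z * p z + b z * q z)
    (F₂ := fun z => c z * q z)
    (F₁' := fun z => (ax z * p z + a z * r z) + (bx z * q z + b z * m z))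
    (F₂' := fun z => cy z * q z + c z * t z) ⟨J.cf, (ha.c.mul J.cp).add (hb.c.mul J.cq),
    J.cp.mono s, J.cq.mono s, (hc.c.mul J.cq).mono s,
    ((ha.cx.mul (J.cp.mono s)).add ((ha.c.mono s).mul J.cr)).add
      ((hb.cx.mul (J.cq.mono s)).add ((hb.c.mono s).mul J.cm)),
    (hc.cy.mul (J.cq.mono s)).add ((hc.c.mono s).mul J.ct), J.fx, J.fy,
    fun z hz => (((ha.dx z hz).mul (J.px z hz)).add ((hb.dx z hz).mul (J.qx z hz)) :),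
    fun x hx θ hθ => ((hc.dy x hx θ hθ).mul (J.qy x hx θ hθ) :), J.pf,
    fun x hx => by simp only [hc.pe x hx, J.pq x hx], bd, fun z hz => ?_, fun z hz => ?_,
    fun z hz => ?_, ?_⟩ h1 (by linarith)
  · have hC : 0 ≤ C := (norm_nonneg _).trans (sm z hz).2.2.2.1
    nlinarith [n1 z hz, norm_nonneg (p z), norm_nonneg (q z), mul_nonneg hC (norm_nonneg (d z))]
  · obtain ⟨-, -, s3, s4, -⟩ := sm z hz
    have hC : 0 ≤ C := (norm_nonneg _).trans s4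
    rw [show c z * q z - q z / 2 = (c z - 1 / 2) * q z by ring, norm_mul]
    nlinarith [norm_nonneg (p z), norm_nonneg (q z), mul_nonneg hC (norm_nonneg (d z))]
  · obtain ⟨-, -, -, s4, s5, s6⟩ := sm z hz
    have hC : 0 ≤ C := (norm_nonneg _).trans s4
    have hx : 0 ≤ z.1 := by linarith [hz.1]
    rw [show ax z * p z + a z * r z + (bx z * q z + b z * m z) - z.1 / 2 * (a z * p z + b z * q z) +
      (cy z * q z + c z * t z) = (a z * r z + b z * m z + c z * t z - z.1 / 2 * p z) +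
      (ax z * p z + bx z * q z + cy z * q z) +
      -((z.1 / 2 : ℝ) : ℂ) * (a z * p z + b z * q z - p z) by push_cast; ring]
    refine norm_add₃_le.trans ?_
    have a1 : ‖ax z * p z + bx z * q z + cy z * q z‖ ≤ C * ‖p z‖ + C * ‖q z‖ + C * ‖q z‖ :=
      norm_add₃_le.trans (by simp only [norm_mul]; gcongr)
    have a2 : ‖-((z.1 / 2 : ℝ) : ℂ) * (a z * p z + b z * q z - p z)‖ ≤
        z.1 / 2 * ((‖p z‖ + ‖q z‖) / 100) := by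
      rw [norm_mul, norm_neg, Complex.norm_real, Real.norm_of_nonneg (by linarith)]
      gcongr
      exact n1 z hz
    nlinarith [eq z hz, mul_nonneg hC (norm_nonneg (p z)), mul_nonneg hC (norm_nonneg (q z)),
      mul_nonneg (mul_nonneg hC (by linarith : 0 ≤ 1 + z.1)) (norm_nonneg (d z))]
  · refine gr.mono two_pos (R := R) fun z hz => ?_
    have a1 : ‖a z * p z + b z * q z‖ ≤ 2 * (‖p z‖ + ‖q z‖) := by
      have := norm_le_norm_sub_add (a z * p z + b z * q z) (p z)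
      linarith [n1 z hz, norm_nonneg (p z), norm_nonneg (q z)]
    linarith [mul_le_mul_of_nonneg_left a1 (norm_nonneg (d z))]

/-! ### quasilinear operators -/

theorem loc {φ : W → ℂ} (hφ : ContDiff ℂ 1 φ) (c₀ : W) {η : ℝ} (hη : 0 < η) :
    ∀ᶠ ε in 𝓝[>] (0 : ℝ), ∀ j ∈ closedBall c₀ ε,
      ‖φ j - φ c₀‖ ≤ η ∧ ‖fderiv ℂ φ j - fderiv ℂ φ c₀‖ ≤ η := by
  have h1 : ∀ᶠ j in 𝓝 c₀, ‖φ j - φ c₀‖ ≤ η ∧ ‖fderiv ℂ φ j - fderiv ℂ φ c₀‖ ≤ η := by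
    refine Eventually.and ?_ ?_
    · simpa only [dist_eq_norm] using (Metric.continuousAt_iff'.1 hφ.continuous.continuousAt η hη).mono
        fun _ h => h.le
    · simpa only [dist_eq_norm] using (Metric.continuousAt_iff'.1
        (hφ.continuous_fderiv one_ne_zero).continuousAt η hη).mono fun _ h => h.le
  exact ((eventually_closedBall_subset h1).filter_mono nhdsWithin_le_nhds).mono fun _ h j hj => h hj

theorem mv {φ : W → ℂ} (hφ : ContDiff ℂ 1 φ) {c₀ : W} {ε η : ℝ} {T : W →L[ℂ] ℂ}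
    (h : ∀ j ∈ closedBall c₀ ε, ‖fderiv ℂ φ j - T‖ ≤ η) {j j' : W} (hj : j ∈ closedBall c₀ ε)
    (hj' : j' ∈ closedBall c₀ ε) : ‖φ j' - φ j - T (j' - j)‖ ≤ η * ‖j' - j‖ :=
  (convex_closedBall c₀ ε).norm_image_sub_le_of_norm_fderiv_le'
    (fun x _ => hφ.differentiable one_ne_zero x) h hj hj'

theorem norm_W (d p q : ℂ) : ‖((d, p, q) : W)‖ ≤ ‖d‖ + ‖p‖ + ‖q‖ := by
  simp only [Prod.norm_mk, max_le_iff]
  refine ⟨?_, ?_, ?_⟩ <;> linarith [norm_nonneg d, norm_nonneg p, norm_nonneg q]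

/-- the operator `a f_xx + b f_xθ + c f_θθ + e - x g / 2` with coefficients depending on the 1-jet -/
structure Op (c₀ : W) where
  a : W → ℂ
  b : W → ℂ
  c : W → ℂ
  e : W → ℂ
  g : W → ℂ
  ha : ContDiff ℂ 1 a
  hb : ContDiff ℂ 1 b
  hc : ContDiff ℂ 1 c
  he : ContDiff ℂ 1 e
  hg : ContDiff ℂ 1 g
  a0 : a c₀ = 1
  b0 : b c₀ = 0
  c0 : c c₀ = 1 / 2
  g0 : ∀ D, fderiv ℂ g c₀ D = D.2.1

namespace Op

variable {c₀ : W} (O : Op c₀)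

/-- the operator -/
def Φ (x : ℂ) (j k : W) : ℂ := O.a j * k.1 + O.b j * k.2.1 + O.c j * k.2.2 + O.e j - x / 2 * O.g j

/-- its linearisation -/
def L (x : ℂ) (j k D K : W) : ℂ := O.a j * K.1 + O.b j * K.2.1 + O.c j * K.2.2 +
  (fderiv ℂ O.a j D * k.1 + fderiv ℂ O.b j D * k.2.1 + fderiv ℂ O.c j D * k.2.2 +
    fderiv ℂ O.e j D) - x / 2 * fderiv ℂ O.g j D

theorem hasDerivAt (x : ℂ) (j k D K : W) :
    HasDerivAt (fun s : ℂ => O.Φ x (j + s • D) (k + s • K)) (O.L x j k D K) 0 := by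
  have l : ∀ u v : W, HasDerivAt (fun s : ℂ => u + s • v) v 0 := fun u v => by
    simpa using ((hasDerivAt_id (0 : ℂ)).smul_const v).const_add u
  have c : ∀ {φ : W → ℂ}, ContDiff ℂ 1 φ →
      HasDerivAt (fun s : ℂ => φ (j + s • D)) (fderiv ℂ φ j D) 0 := fun {φ} hφ => by
    have := (hφ.differentiable one_ne_zero (j + (0 : ℂ) • D)).hasFDerivAt.comp_hasDerivAt 0 (l j D)
    rw [zero_smul, add_zero] at this
    exact this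
  have := (((((c O.ha).mul (l k K).fst).add ((c O.hb).mul (l k K).snd.fst)).add
    ((c O.hc).mul (l k K).snd.snd)).add (c O.he)).sub ((c O.hg).const_mul (x / 2))
  refine (this.congr_deriv ?_ :)
  simp only [L, zero_smul, add_zero]
  ring

/-- smallness of a jet -/
def Sm (c₀ : W) (ε C : ℝ) (j k : W) : Prop := ‖j - c₀‖ ≤ ε ∧ ‖k‖ ≤ C

set_option maxHeartbeats 800000 in
/-- **matching** for a quasilinear operator -/
theorem mt : ∃ ε : ℝ, 0 < ε ∧ ∀ C : ℝ, ∃ R₁ : ℝ, ∀ R, R₁ ≤ R →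
    ∀ {f₀ p₀ q₀ r₀ m₀ t₀ f₁ p₁ q₁ r₁ m₁ t₁ f₂ p₂ q₂ r₂ m₂ t₂ A Ax Ay B Bx By : ℝ × ℝ → ℂ},
    Jt R f₀ p₀ q₀ r₀ m₀ t₀ → Jt R f₁ p₁ q₁ r₁ m₁ t₁ → Jt R f₂ p₂ q₂ r₂ m₂ t₂ →
    J1 R A Ax Ay → J1 R B Bx By →
    (∀ z ∈ Ho R, ‖A z‖ + ‖B z‖ ≤ 2 ∧ ‖A z + B z - 1‖ ≤ ε ∧ ‖Ax z‖ ≤ C ∧ ‖Ay z‖ ≤ C ∧
      ‖Bx z‖ ≤ C ∧ ‖By z‖ ≤ C) →
    (∀ z ∈ Ho R, Sm c₀ ε C (f₀ z, p₀ z, q₀ z) (r₀ z, m₀ z, t₀ z)) →
    (∀ z ∈ Ho R, (B z = 0 ∧ Bx z = 0 ∧ By z = 0) ∨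
      (Sm c₀ ε C (f₁ z, p₁ z, q₁ z) (r₁ z, m₁ z, t₁ z) ∧
        Sm c₀ ε C (f₂ z, p₂ z, q₂ z) (r₂ z, m₂ z, t₂ z))) →
    (∀ θ ∈ Icc 0 (2 * Real.pi), f₂ (R, θ) = f₁ (R, θ)) →
    (Lo fun z => ‖f₂ z - f₁ z‖ * (‖p₂ z - p₁ z‖ + ‖q₂ z - q₁ z‖)) →
    (∀ z ∈ Ho R, A z * O.L z.1 (f₀ z, p₀ z, q₀ z) (r₀ z, m₀ z, t₀ z)
        (f₂ z - f₁ z, p₂ z - p₁ z, q₂ z - q₁ z) (r₂ z - r₁ z, m₂ z - m₁ z, t₂ z - t₁ z) +
      B z * (O.Φ z.1 (f₂ z, p₂ z, q₂ z) (r₂ z, m₂ z, t₂ z) -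
        O.Φ z.1 (f₁ z, p₁ z, q₁ z) (r₁ z, m₁ z, t₁ z)) = 0) →
    ∀ z ∈ Hc R, f₂ z = f₁ z := by
  have η0 : (0 : ℝ) < 1 / 400 := by norm_num
  obtain ⟨ε, ⟨⟨⟨⟨la, lb⟩, lc⟩, le⟩, lg⟩, hε⟩ := ((((((loc O.ha c₀ η0).and (loc O.hb c₀ η0)).and
    (loc O.hc c₀ η0)).and (loc O.he c₀ η0)).and (loc O.hg c₀ η0)).and
    (Ioo_mem_nhdsGT (by norm_num : (0 : ℝ) < 1 / 200))).exists
  obtain ⟨K, K2, ka, kb, kc, ke⟩ : ∃ K : ℝ, 2 ≤ K ∧ ‖fderiv ℂ O.a c₀‖ ≤ K - 2 ∧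
      ‖fderiv ℂ O.b c₀‖ ≤ K - 2 ∧ ‖fderiv ℂ O.c c₀‖ ≤ K - 2 ∧ ‖fderiv ℂ O.e c₀‖ ≤ K - 2 := by
    have n0 := norm_nonneg (fderiv ℂ O.a c₀)
    have n1 := norm_nonneg (fderiv ℂ O.b c₀)
    have n2 := norm_nonneg (fderiv ℂ O.c c₀)
    have n3 := norm_nonneg (fderiv ℂ O.e c₀)
    exact ⟨2 + ‖fderiv ℂ O.a c₀‖ + ‖fderiv ℂ O.b c₀‖ + ‖fderiv ℂ O.c c₀‖ + ‖fderiv ℂ O.e c₀‖,
      by linarith, by linarith, by linarith, by linarith, by linarith⟩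
  have fd : ∀ {φ : W → ℂ} {j : W}, ‖fderiv ℂ φ j - fderiv ℂ φ c₀‖ ≤ 1 / 400 →
      ‖fderiv ℂ φ c₀‖ ≤ K - 2 → ‖fderiv ℂ φ j‖ ≤ K := fun {φ j} h1 h2 => by
    linarith [norm_le_norm_sub_add (fderiv ℂ φ j) (fderiv ℂ φ c₀)]
  refine ⟨ε, hε.1, fun C => ?_⟩
  obtain ⟨N, hN⟩ : ∃ N : ℝ, N = (1 + ‖c₀‖ + |C|) * K := ⟨_, rfl⟩
  have c0 := norm_nonneg c₀
  have c1 := abs_nonneg C
  have c2 := le_abs_self C
  have N1 : K ≤ N := by nlinarith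
  refine ⟨max 1000 (3000 * (8 * N)), fun R hR f₀ p₀ q₀ r₀ m₀ t₀ f₁ p₁ q₁ r₁ m₁ t₁ f₂ p₂ q₂ r₂ m₂ t₂
    A Ax Ay B Bx By J₀ J₁ J₂ hA hB sA s₀ s₁ bd gr eq z hz => sub_eq_zero.1 ?_⟩
  have cf : ∀ {φ : W → ℂ}, ContDiff ℂ 1 φ → J1 R _ _ _ := fun {φ} hφ =>
    (hA.mul (J₀.comp hφ)).add (hB.mul (J₂.comp hφ))
  have mb : ∀ {j k : W}, Sm c₀ ε C j k → j ∈ closedBall c₀ ε := fun h => mem_closedBall_iff_norm.2 h.1
  -- values of the coefficients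
  have v : ∀ {φ : W → ℂ}, (∀ j ∈ closedBall c₀ ε, ‖φ j - φ c₀‖ ≤ 1 / 400) → ‖φ c₀‖ ≤ 1 →
      ∀ z ∈ Ho R, ‖A z * φ (f₀ z, p₀ z, q₀ z) + B z * φ (f₂ z, p₂ z, q₂ z) - φ c₀‖ ≤ 1 / 100 := by
    intro φ h1 h2 z hz
    obtain ⟨a1, a2, -⟩ := sA z hz
    have b1 := h1 _ (mb (s₀ z hz))
    have b2 : ‖B z * (φ (f₂ z, p₂ z, q₂ z) - φ c₀)‖ ≤ ‖B z‖ * (1 / 400) := by
      rcases s₁ z hz with h | h
      · simp [h.1]
      · rw [norm_mul]; gcongr; exact h1 _ (mb h.2)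
    rw [show A z * φ (f₀ z, p₀ z, q₀ z) + B z * φ (f₂ z, p₂ z, q₂ z) - φ c₀ =
      A z * (φ (f₀ z, p₀ z, q₀ z) - φ c₀) + B z * (φ (f₂ z, p₂ z, q₂ z) - φ c₀) +
      (A z + B z - 1) * φ c₀ by ring]
    refine norm_add₃_le.trans ?_
    have b3 : ‖A z * (φ (f₀ z, p₀ z, q₀ z) - φ c₀)‖ ≤ ‖A z‖ * (1 / 400) := by rw [norm_mul]; gcongr
    have b4 : ‖(A z + B z - 1) * φ c₀‖ ≤ ε * 1 := by rw [norm_mul]; gcongr; exact hε.1.le
    linarith [hε.2]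
  -- derivatives of the coefficients
  have w : ∀ {φ : W → ℂ} {j k : W} (α α' : ℂ) (u : W), Sm c₀ ε C j k → ‖α‖ ≤ 2 → ‖α'‖ ≤ C →
      (∀ j ∈ closedBall c₀ ε, ‖φ j - φ c₀‖ ≤ 1 / 400 ∧ ‖fderiv ℂ φ j - fderiv ℂ φ c₀‖ ≤ 1 / 400) →
      ‖φ c₀‖ ≤ 1 → ‖fderiv ℂ φ c₀‖ ≤ K - 2 → ‖u‖ ≤ max ‖j‖ ‖k‖ →
      ‖α' * φ j + α * fderiv ℂ φ j u‖ ≤ 4 * N := by
    intro φ j k α α' u h h1 h2 h3 h4 h5 h6
    have b1 : ‖φ j‖ ≤ K := by linarith [norm_le_norm_sub_add (φ j) (φ c₀), (h3 j (mb h)).1]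
    have b2 : ‖u‖ ≤ 1 + ‖c₀‖ + |C| := h6.trans (max_le
      (by linarith [norm_le_norm_sub_add j c₀, h.1, hε.2]) (by linarith [h.2]))
    have b3 : ‖fderiv ℂ φ j u‖ ≤ K * (1 + ‖c₀‖ + |C|) :=
      (ContinuousLinearMap.le_opNorm _ _).trans (by gcongr; exact fd (h3 j (mb h)).2 h5)
    refine (norm_add_le _ _).trans ?_
    rw [norm_mul, norm_mul]
    have b4 : ‖α'‖ * ‖φ j‖ ≤ |C| * K := by gcongr; linarith
    have b5 : ‖α‖ * ‖fderiv ℂ φ j u‖ ≤ 2 * (K * (1 + ‖c₀‖ + |C|)) := by gcongr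
    nlinarith
  have wx : ∀ f p q r m t : ℂ, ‖((p, r, m) : W)‖ ≤ max ‖((f, p, q) : W)‖ ‖((r, m, t) : W)‖ :=
    fun f p q r m t => by
      simp only [Prod.norm_mk, max_le_iff]
      simp only [le_max_iff, le_refl, true_or, or_true, and_self]
  have wy : ∀ f p q r m t : ℂ, ‖((q, m, t) : W)‖ ≤ max ‖((f, p, q) : W)‖ ‖((r, m, t) : W)‖ :=
    fun f p q r m t => by
      simp only [Prod.norm_mk, max_le_iff]
      simp only [le_max_iff, le_refl, true_or, or_true, and_self]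
  have w2 : ∀ {φ : W → ℂ} (z : ℝ × ℝ) (α' β' : ℂ) (u u' : W), z ∈ Ho R → ‖α'‖ ≤ C → ‖β'‖ ≤ C →
      (B z = 0 ∧ Bx z = 0 ∧ By z = 0 → β' = 0) →
      (∀ j ∈ closedBall c₀ ε, ‖φ j - φ c₀‖ ≤ 1 / 400 ∧ ‖fderiv ℂ φ j - fderiv ℂ φ c₀‖ ≤ 1 / 400) →
      ‖φ c₀‖ ≤ 1 → ‖fderiv ℂ φ c₀‖ ≤ K - 2 →
      ‖u‖ ≤ max ‖((f₀ z, p₀ z, q₀ z) : W)‖ ‖((r₀ z, m₀ z, t₀ z) : W)‖ →
      ‖u'‖ ≤ max ‖((f₂ z, p₂ z, q₂ z) : W)‖ ‖((r₂ z, m₂ z, t₂ z) : W)‖ →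
      ‖(α' * φ (f₀ z, p₀ z, q₀ z) + A z * fderiv ℂ φ (f₀ z, p₀ z, q₀ z) u) +
        (β' * φ (f₂ z, p₂ z, q₂ z) + B z * fderiv ℂ φ (f₂ z, p₂ z, q₂ z) u')‖ ≤ 8 * N := by
    intro φ z α' β' u u' hz h1 h2 h0 h3 h4 h5 h6 h7
    have a1 := (sA z hz).1
    have b1 := w (A z) α' u (s₀ z hz) (by linarith [norm_nonneg (B z)]) h1 h3 h4 h5 h6
    refine (norm_add_le _ _).trans ?_
    rcases s₁ z hz with h | h
    · rw [h0 h, h.1]; simp only [zero_mul, add_zero, norm_zero]; linarith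
    · linarith [w (B z) β' u' h.2 (by linarith [norm_nonneg (A z)]) h2 h3 h4 h5 h7]
  refine nd (C := 8 * N) (J₂.sub J₁) (cf O.ha) (cf O.hb) (cf O.hc)
    (fun θ hθ => sub_eq_zero.2 (bd θ hθ)) (fun z hz => ⟨?_, ?_, ?_, ?_, ?_, ?_⟩) (fun z hz => ?_) gr
    ((le_max_left _ _).trans hR) ((le_max_right _ _).trans hR) z hz
  · simpa only [O.a0] using v (fun j hj => (la j hj).1) (by simp [O.a0]) z hz
  · simpa only [O.b0, sub_zero] using v (fun j hj => (lb j hj).1) (by simp [O.b0]) z hz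
  · simpa only [O.c0] using v (fun j hj => (lc j hj).1) (by norm_num [O.c0]) z hz
  · exact w2 z _ _ _ _ hz (sA z hz).2.2.1 (sA z hz).2.2.2.2.1 (fun h => h.2.1) la (by simp [O.a0])
      ka (wx _ _ _ _ _ _) (wx _ _ _ _ _ _)
  · exact w2 z _ _ _ _ hz (sA z hz).2.2.1 (sA z hz).2.2.2.2.1 (fun h => h.2.1) lb (by simp [O.b0])
      kb (wx _ _ _ _ _ _) (wx _ _ _ _ _ _)
  · exact w2 z _ _ _ _ hz (sA z hz).2.2.2.1 (sA z hz).2.2.2.2.2 (fun h => h.2.2) lc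
      (by norm_num [O.c0]) kc (wy _ _ _ _ _ _) (wy _ _ _ _ _ _)
  · have e := eq z hz
    obtain ⟨a1, a2, -⟩ := sA z hz
    have hx : 0 ≤ z.1 := by linarith [hz.1, (le_max_left _ _).trans hR]
    set j₀ : W := (f₀ z, p₀ z, q₀ z)
    set j₁ : W := (f₁ z, p₁ z, q₁ z)
    set j₂ : W := (f₂ z, p₂ z, q₂ z)
    set D : W := (f₂ z - f₁ z, p₂ z - p₁ z, q₂ z - q₁ z) with hD
    have eD : j₂ - j₁ = D := rfl
    set X₀ := fderiv ℂ O.a j₀ D * r₀ z + fderiv ℂ O.b j₀ D * m₀ z + fderiv ℂ O.c j₀ D * t₀ z +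
      fderiv ℂ O.e j₀ D with hX₀
    set X₁ := (O.a j₂ - O.a j₁) * r₁ z + (O.b j₂ - O.b j₁) * m₁ z + (O.c j₂ - O.c j₁) * t₁ z +
      (O.e j₂ - O.e j₁) with hX₁
    set Y₀ := fderiv ℂ O.g j₀ D - fderiv ℂ O.g c₀ D with hY₀
    set Y₁ := O.g j₂ - O.g j₁ - fderiv ℂ O.g c₀ D with hY₁
    have four : ∀ {u₁ u₂ u₃ u₄ : ℂ} {k : W}, ‖k‖ ≤ C → ‖u₁‖ ≤ K * ‖D‖ → ‖u₂‖ ≤ K * ‖D‖ →
        ‖u₃‖ ≤ K * ‖D‖ → ‖u₄‖ ≤ K * ‖D‖ → ‖u₁ * k.1 + u₂ * k.2.1 + u₃ * k.2.2 + u₄‖ ≤ 4 * N * ‖D‖ := by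
      intro u₁ u₂ u₃ u₄ k hk h1 h2 h3 h4
      have k1 : ‖k.1‖ ≤ |C| := by linarith [norm_fst_le k]
      have k2 : ‖k.2.1‖ ≤ |C| := by linarith [norm_fst_le k.2, norm_snd_le k]
      have k3 : ‖k.2.2‖ ≤ |C| := by linarith [norm_snd_le k.2, norm_snd_le k]
      have k4 : ‖u₁ * k.1 + u₂ * k.2.1 + u₃ * k.2.2‖ ≤
          K * ‖D‖ * |C| + K * ‖D‖ * |C| + K * ‖D‖ * |C| :=
        norm_add₃_le.trans (by simp only [norm_mul]; gcongr)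
      have k5 : 0 ≤ K * ‖D‖ := by positivity
      have k6 : N * ‖D‖ = (1 + ‖c₀‖ + |C|) * (K * ‖D‖) := by rw [hN]; ring
      nlinarith [norm_add_le (u₁ * k.1 + u₂ * k.2.1 + u₃ * k.2.2) u₄, mul_nonneg c0 k5,
        mul_nonneg c1 k5]
    have op : ∀ {φ : W → ℂ}, ‖fderiv ℂ φ j₀‖ ≤ K → ‖fderiv ℂ φ j₀ D‖ ≤ K * ‖D‖ := fun h =>
      (ContinuousLinearMap.le_opNorm _ _).trans (by gcongr)
    have m0 := mb (s₀ z hz)
    have b1 : ‖X₀‖ ≤ 4 * N * ‖D‖ := four (k := (r₀ z, m₀ z, t₀ z)) (s₀ z hz).2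
      (op (fd (la _ m0).2 ka)) (op (fd (lb _ m0).2 kb))
      (op (fd (lc _ m0).2 kc)) (op (fd (le _ m0).2 ke))
    have b2 : ‖Y₀‖ ≤ 1 / 400 * ‖D‖ := by
      rw [hY₀, ← sub_apply]
      exact (ContinuousLinearMap.le_opNorm _ _).trans (by gcongr; exact (lg _ m0).2)
    have b3 : ‖B z * X₁‖ ≤ ‖B z‖ * (4 * N * ‖D‖) ∧ ‖B z * Y₁‖ ≤ ‖B z‖ * (1 / 400 * ‖D‖) := by
      rcases s₁ z hz with h | h
      · simp [h.1]
      · have lp : ∀ {φ : W → ℂ}, ContDiff ℂ 1 φ → (∀ j ∈ closedBall c₀ ε, ‖fderiv ℂ φ j‖ ≤ K) →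
            ‖φ j₂ - φ j₁‖ ≤ K * ‖D‖ := fun {φ} hφ h1 => by
          have := mv hφ (T := 0) (fun j hj => by rw [sub_zero]; exact h1 j hj) (mb h.1) (mb h.2)
          rw [zero_apply, sub_zero] at this
          exact this
        rw [norm_mul, norm_mul]
        constructor
        · gcongr
          exact four (k := (r₁ z, m₁ z, t₁ z)) h.1.2
            (lp O.ha fun j hj => fd (la j hj).2 ka)
            (lp O.hb fun j hj => fd (lb j hj).2 kb)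
            (lp O.hc fun j hj => fd (lc j hj).2 kc)
            (lp O.he fun j hj => fd (le j hj).2 ke)
        · gcongr
          exact mv O.hg (fun j hj => (lg j hj).2) (mb h.1) (mb h.2)
    have id : (A z * O.a j₀ + B z * O.a j₂) * (r₂ z - r₁ z) +
        (A z * O.b j₀ + B z * O.b j₂) * (m₂ z - m₁ z) +
        (A z * O.c j₀ + B z * O.c j₂) * (t₂ z - t₁ z) - z.1 / 2 * (p₂ z - p₁ z) =
        -(A z * X₀ + B z * X₁) + ((z.1 / 2 : ℝ) : ℂ) *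
          (A z * Y₀ + B z * Y₁ + (A z + B z - 1) * (p₂ z - p₁ z)) := by
      simp only [L, Φ] at e
      simp only [hX₀, hX₁, hY₀, hY₁, O.g0, hD]
      push_cast
      linear_combination e
    rw [id]
    have b4 : ‖A z * X₀‖ ≤ ‖A z‖ * (4 * N * ‖D‖) := by rw [norm_mul]; gcongr
    have b5 : ‖A z * Y₀‖ ≤ ‖A z‖ * (1 / 400 * ‖D‖) := by rw [norm_mul]; gcongr
    have b6 : ‖(A z + B z - 1) * (p₂ z - p₁ z)‖ ≤ 1 / 200 * ‖p₂ z - p₁ z‖ := by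
      rw [norm_mul]; gcongr; linarith [hε.2]
    have nD := norm_W (f₂ z - f₁ z) (p₂ z - p₁ z) (q₂ z - q₁ z)
    rw [← hD] at nD
    have d0 := norm_nonneg D
    have N0 : 0 ≤ N := by linarith
    have b7 : ‖-(A z * X₀ + B z * X₁)‖ ≤ 8 * N * ‖D‖ := by
      rw [norm_neg]
      have := mul_le_mul_of_nonneg_right a1 (mul_nonneg N0 d0)
      linarith only [norm_add_le (A z * X₀) (B z * X₁), b3.1, b4, this]
    have b8 : ‖A z * Y₀ + B z * Y₁ + (A z + B z - 1) * (p₂ z - p₁ z)‖ ≤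
        1 / 200 * ‖D‖ + 1 / 200 * ‖p₂ z - p₁ z‖ := by
      have := mul_le_mul_of_nonneg_right a1 d0
      linarith only [norm_add₃_le (a := A z * Y₀) (b := B z * Y₁)
        (c := (A z + B z - 1) * (p₂ z - p₁ z)), b3.2, b5, b6, this]
    refine (norm_add_le _ _).trans ?_
    rw [norm_mul, Complex.norm_real, Real.norm_of_nonneg (by linarith only [hx])]
    have b9 := mul_le_mul_of_nonneg_left b8 (show 0 ≤ z.1 / 2 by linarith only [hx])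
    have b10 := mul_le_mul_of_nonneg_left nD N0
    have b11 := mul_le_mul_of_nonneg_left nD hx
    have b12 : z.1 * ‖f₂ z - f₁ z‖ ≤ N * (z.1 * ‖f₂ z - f₁ z‖) :=
      le_mul_of_one_le_left (by positivity) (by linarith only [N1, K2])
    linarith only [b7, b9, b10, b11, b12, mul_nonneg hx (norm_nonneg (q₂ z - q₁ z)),
      mul_nonneg hx (norm_nonneg (f₂ z - f₁ z))]

end Op

end Crest.Agent.N250.Mt

end
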